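import Vale.Agent.P262.Forms

/-!
# Groups, payloads and scales
-/

namespace Vale.Agent.P262

open Finset

variable {ι K : Type*}

/-! ### Payloads -/

/-- The heavy part of coordinate `k`. -/
noncomputable def hvy (v : ι → K → ℝ) (θ : ℝ) (k : K) (i : ι) : ℝ :=
  if θ ≤ |v i k| then |v i k| else 0

/-- The light energy of coordinate `k`. -/
noncomputable def lsq (v : ι → K → ℝ) (θ : ℝ) (k : K) (i : ι) : ℝ :=
  if |v i k| < θ then v i k ^ 2 else 0

/-- The light value of coordinate `k`. -/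
noncomputable def llin (v : ι → K → ℝ) (θ : ℝ) (k : K) (i : ι) : ℝ :=
  if |v i k| < θ then v i k else 0

lemma hvy_nonneg (v : ι → K → ℝ) (θ : ℝ) (k : K) (i : ι) : 0 ≤ hvy v θ k i := by
  unfold hvy; split_ifs <;> simp

lemma lsq_nonneg (v : ι → K → ℝ) (θ : ℝ) (k : K) (i : ι) : 0 ≤ lsq v θ k i := by
  unfold lsq; split_ifs
  · positivity
  · exact le_refl _

lemma hvy_le_abs (v : ι → K → ℝ) (θ : ℝ) (k : K) (i : ι) : hvy v θ k i ≤ |v i k| := by
  unfold hvy; split_ifs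
  · exact le_refl _
  · exact abs_nonneg _

lemma lsq_le_sq (v : ι → K → ℝ) (θ : ℝ) (k : K) (i : ι) : lsq v θ k i ≤ v i k ^ 2 := by
  unfold lsq; split_ifs
  · exact le_refl _
  · positivity

lemma hvy_anti {v : ι → K → ℝ} {θ θ' : ℝ} (h : θ' ≤ θ) (hθ : 0 < θ') (k : K) (i : ι) :
    hvy v θ' k i ≤ hvy v θ k i + lsq v θ k i / θ' := by
  unfold hvy lsq
  by_cases h1 : θ ≤ |v i k|
  · have h2 : θ' ≤ |v i k| := h.trans h1
    have h3 : ¬ |v i k| < θ := not_lt.mpr h1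
    simp [h1, h2, h3]
  · have h3 : |v i k| < θ := not_le.mp h1
    by_cases h2 : θ' ≤ |v i k|
    · simp only [h1, h2, h3, if_true, if_false, zero_add]
      rw [le_div_iff₀ hθ, ← sq_abs]
      nlinarith [abs_nonneg (v i k)]
    · simp only [h1, h2, h3, if_true, if_false, zero_add]
      positivity

lemma hvy_le_sq_div {v : ι → K → ℝ} {θ : ℝ} (hθ : 0 < θ) (k : K) (i : ι) :
    hvy v θ k i ≤ v i k ^ 2 / θ := by
  unfold hvy
  split_ifs with h
  · rw [le_div_iff₀ hθ, ← sq_abs]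
    nlinarith [abs_nonneg (v i k)]
  · positivity

lemma lsq_mono {v : ι → K → ℝ} {θ θ' : ℝ} (h : θ' ≤ θ) (k : K) (i : ι) :
    lsq v θ' k i ≤ lsq v θ k i := by
  unfold lsq
  by_cases h1 : |v i k| < θ'
  · have h2 : |v i k| < θ := lt_of_lt_of_le h1 h
    simp [h1, h2]
  · simp only [h1, if_false]
    split_ifs <;> positivity

lemma lsq_sq_le {v : ι → K → ℝ} {θ : ℝ} (hθ : 0 ≤ θ) (k : K) (i : ι) :
    lsq v θ k i ^ 2 ≤ θ ^ 2 * lsq v θ k i := by
  unfold lsq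
  split_ifs with h
  · have h2 : v i k ^ 2 ≤ θ ^ 2 := by
      rw [← sq_abs]; nlinarith [abs_nonneg (v i k)]
    nlinarith [sq_nonneg (v i k)]
  · simp

lemma llin_sq (v : ι → K → ℝ) (θ : ℝ) (k : K) (i : ι) : llin v θ k i ^ 2 = lsq v θ k i := by
  unfold llin lsq; split_ifs <;> simp

lemma llin_shift {v : ι → K → ℝ} {θ θ' : ℝ} (h : θ' ≤ θ) (hθ : 0 < θ') (k : K) (i : ι) :
    |llin v θ' k i - llin v θ k i| ≤ lsq v θ k i / θ' := by
  unfold llin lsq
  by_cases h1 : |v i k| < θ'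
  · have h2 : |v i k| < θ := lt_of_lt_of_le h1 h
    simp only [h1, h2, if_true, sub_self, abs_zero]
    positivity
  · by_cases h2 : |v i k| < θ
    · simp only [h1, h2, if_true, if_false, zero_sub, abs_neg]
      rw [le_div_iff₀ hθ, ← sq_abs (v i k)]
      nlinarith [abs_nonneg (v i k), not_lt.mp h1]
    · simp only [h1, h2, if_false, sub_self, abs_zero, zero_div]
      exact le_refl _

lemma abs_sub_llin (v : ι → K → ℝ) (θ : ℝ) (k : K) (i : ι) :
    |v i k - llin v θ k i| ≤ hvy v θ k i := by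
  unfold llin hvy
  by_cases h : |v i k| < θ
  · have : ¬ θ ≤ |v i k| := not_le.mpr h
    simp [h, this]
  · have : θ ≤ |v i k| := not_lt.mp h
    simp [h, this]

lemma sq_le_hvy_add_lsq {v : ι → K → ℝ} {θ : ℝ} {k : K} {i : ι} (h1 : |v i k| ≤ 1) :
    v i k ^ 2 ≤ hvy v θ k i + lsq v θ k i := by
  unfold hvy lsq
  by_cases h : |v i k| < θ
  · have : ¬ θ ≤ |v i k| := not_le.mpr h
    simp [h, this]
  · have : θ ≤ |v i k| := not_lt.mp h
    simp only [h, this, if_true, if_false, add_zero]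
    rw [← sq_abs]; nlinarith [abs_nonneg (v i k)]

/-! ### Real inequalities for the recursions -/

lemma sqrt_half_ge {E : ℝ} (hE : 0 ≤ E) : 7 / 10 * Real.sqrt E ≤ Real.sqrt (E / 2) := by
  apply Real.le_sqrt_of_sq_le
  rw [mul_pow, Real.sq_sqrt hE]
  nlinarith

lemma len_step {E δ l l' : ℝ} (hE : 0 ≤ E) (hδ : 0 ≤ δ)
    (hl : l ≤ (Real.sqrt E + 5 / 4 * δ) ^ 2) (hl' : l' ≤ l / 2 + δ * Real.sqrt l / 2) :
    l' ≤ (Real.sqrt (E / 2) + 5 / 4 * δ) ^ 2 := by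
  have hr := Real.sqrt_nonneg E
  have h1 : Real.sqrt l ≤ Real.sqrt E + 5 / 4 * δ := by
    rw [Real.sqrt_le_left (by positivity)]; exact hl
  have h2 := sqrt_half_ge hE
  have h3 : Real.sqrt (E / 2) ^ 2 = E / 2 := Real.sq_sqrt (by positivity)
  have h4 : Real.sqrt E ^ 2 = E := Real.sq_sqrt hE
  have h5 : δ * Real.sqrt l ≤ δ * (Real.sqrt E + 5 / 4 * δ) := mul_le_mul_of_nonneg_left h1 hδ
  have h6 : δ * (7 / 10 * Real.sqrt E) ≤ δ * Real.sqrt (E / 2) := mul_le_mul_of_nonneg_left h2 hδ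
  nlinarith [sq_nonneg δ]

end Vale.Agent.P262
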