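import Vale.Agent.P262.Round

/-!
# The rounding lemma for linear forms
-/

namespace Vale.Agent.P262

open Finset
open scoped RealInnerProductSpace

section forms

variable {ι K : Type*} [Fintype ι] [DecidableEq ι] [Fintype K] [DecidableEq K]

/-- The augmented vectors used by the walk. -/
noncomputable def augVec (a : ι → K → ℝ) (i : ι) : EuclideanSpace ℝ (ι ⊕ K) :=
  WithLp.toLp 2 (Sum.elim (fun j => if j = i then (1 / Real.sqrt 3 : ℝ) else 0)
    (fun k => a i k / Real.sqrt 3))

/-- The vector representing a linear form. -/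
noncomputable def formVec (A : Finset ι) (α : ι → ℝ) (β : K → ℝ) : EuclideanSpace ℝ (ι ⊕ K) :=
  WithLp.toLp 2 (Sum.elim (fun j => if j ∈ A then α j else 0) β)

omit [DecidableEq K] in
lemma augVec_norm (a : ι → K → ℝ) (ha : ∀ i, ∑ k, a i k ^ 2 ≤ 2) (i : ι) :
    ‖augVec a i‖ ≤ 1 := by
  rw [EuclideanSpace.norm_eq]
  apply Real.sqrt_le_one.mpr
  simp only [augVec, Fintype.sum_sum_type, Sum.elim_inl, Sum.elim_inr, Real.norm_eq_abs, sq_abs]
  have h1 : ∑ x : ι, (if x = i then (1 / Real.sqrt 3 : ℝ) else 0) ^ 2 = 1 / 3 := by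
    rw [Finset.sum_eq_single i]
    · simp
    · intro b _ hb; simp [hb]
    · simp
  have h2 : ∑ x : K, (a i x / Real.sqrt 3) ^ 2 ≤ 2 / 3 := by
    have : ∀ x : K, (a i x / Real.sqrt 3) ^ 2 = a i x ^ 2 / 3 := by
      intro x; rw [div_pow, Real.sq_sqrt (by norm_num)]
    simp only [this]
    rw [← Finset.sum_div]
    have := ha i
    linarith
  rw [h1]; linarith

omit [DecidableEq K] in
lemma formVec_norm_sq (A : Finset ι) (α : ι → ℝ) (β : K → ℝ) :
    ‖formVec A α β‖ ^ 2 = ∑ i ∈ A, α i ^ 2 + ∑ k, β k ^ 2 := by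
  rw [EuclideanSpace.norm_sq_eq]
  simp only [formVec, Fintype.sum_sum_type, Sum.elim_inl, Sum.elim_inr, Real.norm_eq_abs, sq_abs]
  congr 1
  rw [← Finset.sum_filter_add_sum_filter_not Finset.univ (fun i => i ∈ A)]
  have h1 : ∑ x with x ∉ A, (if x ∈ A then α x else 0) ^ 2 = 0 := by
    apply Finset.sum_eq_zero
    intro x hx
    simp at hx; simp [hx]
  rw [h1, add_zero]
  have : Finset.filter (fun i => i ∈ A) Finset.univ = A := by ext; simp
  rw [this]
  apply Finset.sum_congr rfl
  intro x hx; simp [hx]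

omit [DecidableEq K] in
lemma inner_formVec_augVec (a : ι → K → ℝ) (A : Finset ι) (α : ι → ℝ) (β : K → ℝ) {i : ι}
    (hi : i ∈ A) :
    ⟪formVec A α β, augVec a i⟫ = (α i + ∑ k, β k * a i k) / Real.sqrt 3 := by
  rw [PiLp.inner_apply]
  simp only [formVec, augVec, Fintype.sum_sum_type, Sum.elim_inl, Sum.elim_inr]
  have h1 : ∑ x : ι, ⟪(if x ∈ A then α x else 0 : ℝ), (if x = i then (1 / Real.sqrt 3 : ℝ) else 0)⟫
      = α i / Real.sqrt 3 := by
    rw [Finset.sum_eq_single i]
    · simp [hi]; ring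
    · intro b _ hb; simp [hb]
    · simp
  have h2 : ∑ x : K, ⟪β x, a i x / Real.sqrt 3⟫ = (∑ k, β k * a i k) / Real.sqrt 3 := by
    rw [Finset.sum_div]
    apply Finset.sum_congr rfl
    intro k _
    simp; ring
  rw [h1, h2]; ring

lemma two_add_sq_le (t : ℝ) : 2 + t ^ 2 / 2 ≤ Real.exp t + Real.exp (-t) := by
  wlog h : 0 ≤ t generalizing t
  · have := this (-t) (by linarith)
    rw [neg_neg] at this
    nlinarith
  have h1 := Real.quadratic_le_exp_of_nonneg h
  have h2 := Real.add_one_le_exp (-t)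
  linarith

lemma exp_le_one_add_two_mul {x : ℝ} (h0 : 0 ≤ x) (h1 : x ≤ 1) : Real.exp x ≤ 1 + 2 * x := by
  have h := Real.abs_exp_sub_one_sub_id_le (x := x) (by rw [abs_of_nonneg h0]; exact h1)
  have := (abs_le.mp h).2
  nlinarith

lemma exp_abs_le (t : ℝ) : Real.exp |t| ≤ Real.exp t + Real.exp (-t) := by
  rcases abs_choice t with h | h <;> rw [h]
  · linarith [Real.exp_pos (- t)]
  · linarith [Real.exp_pos t]

/-- **Rounding for linear forms.**  All forms `q` are controlled at the scale given by the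
logarithm of the number of forms, jointly with a weighted exponential potential of the
coordinates of the error and an arbitrary linear functional of the error. -/
theorem rounding_forms {Q : Type*} [Fintype Q] [Nonempty Q]
    (a : ι → K → ℝ) (ha : ∀ i, ∑ k, a i k ^ 2 ≤ 2)
    (A : Finset ι) (x : ι → ℝ) (hx : ∀ i ∈ A, |x i| ≤ 1)
    (α : Q → ι → ℝ) (β : Q → K → ℝ) (ω c : K → ℝ) (hω : ∀ k, 0 ≤ ω k)
    (hω3 : ∑ k, ω k ≤ 3) :
    ∃ z : ι → ℝ, (∀ i ∈ A, z i = 1 ∨ z i = -1) ∧
      ∀ q, ∃ t : ℝ, |∑ i ∈ A, (z i - x i) * (α q i + ∑ k, β q k * a i k)| ≤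
        8 * Real.sqrt 3 * t * Real.sqrt (∑ i ∈ A, α q i ^ 2 + ∑ k, β q k ^ 2) ∧
        Real.exp t / Fintype.card Q +
          ∑ k, ω k * Real.exp (|∑ i ∈ A, (z i - x i) * a i k| / (8 * Real.sqrt 3)) +
          ∑ k, c k * (∑ i ∈ A, (z i - x i) * a i k) ≤ 10 := by
  classical
  set m : ℕ := Fintype.card Q with hm
  have hm0 : 0 < m := Fintype.card_pos
  have hmR : (0:ℝ) < m := by exact_mod_cast hm0
  -- normalised forms
  set N : Q → ℝ := fun q => ‖formVec A (α q) (β q)‖ with hN
  set U : EuclideanSpace ℝ (ι ⊕ K) := formVec A (fun _ => 0) (fun k => Real.sqrt 3 * c k) with hU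
  set ε : ℝ := 1 / (8 * (1 + ‖U‖ ^ 2)) with hε
  have hεpos : 0 < ε := by positivity
  set e : K → EuclideanSpace ℝ (ι ⊕ K) := fun k =>
    formVec A (fun _ => 0) (fun k' => if k' = k then 1 else 0) with he
  set W : Option ((Q ⊕ K) × Bool) → EuclideanSpace ℝ (ι ⊕ K) := fun o => match o with
    | none => ε • U
    | some s => (if s.2 then (1:ℝ) else -1) •
        (Sum.elim (fun q => (1 / (8 * N q)) • formVec A (α q) (β q))
          (fun k => (1 / 8 : ℝ) • e k) s.1) with hW
  set cc : Option ((Q ⊕ K) × Bool) → ℝ := fun o => match o with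
    | none => 1 / ε
    | some s => Sum.elim (fun _ => 1 / (m:ℝ)) ω s.1 with hcc
  have hc0 : ∀ s ∈ (Finset.univ : Finset (Option ((Q ⊕ K) × Bool))), 0 ≤ cc s := by
    rintro (_ | ⟨s, σ⟩) _
    · simp only [hcc]; positivity
    · simp only [hcc]
      rcases s with q | k
      · simp
      · simp only [Sum.elim_inr]; exact hω k
  have hbn : ∀ k : K, ‖e k‖ = 1 := by
    intro k
    have := formVec_norm_sq A (fun _ : ι => (0:ℝ)) (fun k' => if k' = k then (1:ℝ) else 0)
    rw [Finset.sum_eq_zero (by intros; norm_num), zero_add, Finset.sum_eq_single k] at this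
    · simp only [if_true, one_pow] at this
      have h0 := norm_nonneg (e k)
      have h1 : ‖e k‖ ^ 2 = 1 := this
      nlinarith [sq_nonneg (‖e k‖ - 1)]
    · intro b _ hb; simp [hb]
    · simp
  have hWn1 : ∀ s : (Q ⊕ K) × Bool, ‖W (some s)‖ ≤ 1 / 8 := by
    rintro ⟨s, σ⟩
    simp only [hW]
    rw [norm_smul]
    have h1 : ‖(if (σ : Bool) then (1:ℝ) else -1)‖ = 1 := by cases σ <;> simp
    rw [h1, one_mul]
    rcases s with q | k
    · simp only [Sum.elim_inl]
      rw [norm_smul]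
      by_cases h0 : N q = 0
      · simp [h0]
      · have : 0 < N q := lt_of_le_of_ne (norm_nonneg _) (Ne.symm h0)
        change ‖1 / (8 * N q)‖ * N q ≤ 1 / 8
        rw [Real.norm_eq_abs, abs_of_pos (by positivity)]
        apply le_of_eq; field_simp
    · simp only [Sum.elim_inr]
      rw [norm_smul, hbn]; norm_num
  have hεU : ε * ‖U‖ ≤ 1 / 8 := by
    rw [hε, div_mul_eq_mul_div, div_le_div_iff₀ (by positivity) (by norm_num)]
    nlinarith [sq_nonneg (‖U‖ - 1)]
  have hWn : ∀ s ∈ (Finset.univ : Finset (Option ((Q ⊕ K) × Bool))), ‖W s‖ ≤ 1 / 8 := by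
    rintro (_ | s) _
    · simp only [hW]
      rw [norm_smul, Real.norm_eq_abs, abs_of_pos hεpos]
      exact hεU
    · exact hWn1 s
  obtain ⟨z, hz1, -, hz3⟩ := rounding (augVec a) (augVec_norm a ha) Finset.univ cc hc0 W hWn A x hx
  -- evaluate the inner products
  set X : EuclideanSpace ℝ (ι ⊕ K) := ∑ i ∈ A, (z i - x i) • augVec a i with hX
  have hform : ∀ (α' : ι → ℝ) (β' : K → ℝ), ⟪formVec A α' β', X⟫ =
      (∑ i ∈ A, (z i - x i) * (α' i + ∑ k, β' k * a i k)) / Real.sqrt 3 := by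
    intro α' β'
    rw [hX, inner_sum, Finset.sum_div]
    apply Finset.sum_congr rfl
    intro i hi
    rw [inner_smul_right, inner_formVec_augVec a A α' β' hi]; ring
  set tq : Q → ℝ := fun q => ⟪(1 / (8 * N q)) • formVec A (α q) (β q), X⟫ with htq
  set tk : K → ℝ := fun k => ⟪(1 / 8 : ℝ) • e k, X⟫ with htk
  have hlin : ⟪U, X⟫ = ∑ k, c k * (∑ i ∈ A, (z i - x i) * a i k) := by
    rw [hU, hform, div_eq_iff (by positivity), Finset.sum_mul]
    have h1 : ∀ i, (z i - x i) * (0 + ∑ k, Real.sqrt 3 * c k * a i k) =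
        ∑ k, (z i - x i) * (Real.sqrt 3 * c k * a i k) := by
      intro i; rw [zero_add, Finset.mul_sum]
    simp only [h1]
    rw [Finset.sum_comm]
    apply Finset.sum_congr rfl
    intro k _
    rw [Finset.mul_sum, Finset.sum_mul]
    apply Finset.sum_congr rfl
    intro i _; ring
  have hLHS : ∑ s : Option ((Q ⊕ K) × Bool), cc s * Real.exp ⟪W s, X⟫ =
      1 / ε * Real.exp (ε * ⟪U, X⟫) +
      (∑ q, 1 / (m:ℝ) * (Real.exp (tq q) + Real.exp (- tq q)) +
      ∑ k, ω k * (Real.exp (tk k) + Real.exp (- tk k))) := by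
    rw [Fintype.sum_option, Fintype.sum_prod_type, Fintype.sum_sum_type]
    congr 1
    · simp only [hcc, hW, inner_smul_left]
      simp
    congr 1
    · apply Finset.sum_congr rfl
      intro q _
      simp only [Fintype.sum_bool, hcc, hW, Sum.elim_inl, if_true, one_smul, neg_smul,
        inner_neg_left, Bool.false_eq_true, if_false]
      ring
    · apply Finset.sum_congr rfl
      intro k hk
      simp only [Fintype.sum_bool, hcc, hW, Sum.elim_inr, if_true, one_smul, neg_smul,
        inner_neg_left, Bool.false_eq_true, if_false]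
      ring
  have hexp : Real.exp (3 / 64 : ℝ) ≤ 1.05 := by
    have h := Real.abs_exp_sub_one_sub_id_le (x := (3/64:ℝ)) (by rw [abs_of_pos] <;> norm_num)
    have := (abs_le.mp h).2
    norm_num at this ⊢
    linarith
  have hRHS : ∑ s : Option ((Q ⊕ K) × Bool), cc s * Real.exp (3 * ‖W s‖ ^ 2) ≤
      (1 / ε + 1) + (2 * 1.05 + 3 * 2 * 1.05) := by
    rw [Fintype.sum_option]
    apply add_le_add
    · have h1 : ‖W none‖ ≤ ε * ‖U‖ := by
        simp only [hW]
        rw [norm_smul, Real.norm_eq_abs, abs_of_pos hεpos]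
      have hW0 := norm_nonneg (W none)
      have h2 : 3 * ‖W none‖ ^ 2 ≤ 3 * (ε * ‖U‖) ^ 2 := by nlinarith
      have h3 : 3 * (ε * ‖U‖) ^ 2 ≤ 1 := by
        have : 0 ≤ ε * ‖U‖ := by positivity
        nlinarith
      have h4 : Real.exp (3 * ‖W none‖ ^ 2) ≤ 1 + 2 * (3 * (ε * ‖U‖) ^ 2) :=
        (Real.exp_le_exp.mpr h2).trans (exp_le_one_add_two_mul (by positivity) h3)
      have h5 : 6 * ε * ‖U‖ ^ 2 ≤ 1 := by
        rw [hε]
        have : 6 * (1 / (8 * (1 + ‖U‖ ^ 2))) * ‖U‖ ^ 2 = 6 * ‖U‖ ^ 2 / (8 * (1 + ‖U‖ ^ 2)) := by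
          ring
        rw [this, div_le_one (by positivity)]
        nlinarith [sq_nonneg ‖U‖]
      calc cc none * Real.exp (3 * ‖W none‖ ^ 2) ≤ 1 / ε * (1 + 2 * (3 * (ε * ‖U‖) ^ 2)) := by
            apply mul_le_mul_of_nonneg_left h4
            positivity
        _ = 1 / ε + 6 * ε * ‖U‖ ^ 2 := by field_simp; ring
        _ ≤ 1 / ε + 1 := by linarith
    · have hle : ∀ s : (Q ⊕ K) × Bool, cc (some s) * Real.exp (3 * ‖W (some s)‖ ^ 2) ≤
          cc (some s) * 1.05 := by
        intro s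
        apply mul_le_mul_of_nonneg_left _ (hc0 (some s) (Finset.mem_univ _))
        refine le_trans (Real.exp_le_exp.mpr ?_) hexp
        have h1 := hWn1 s
        have h2 := norm_nonneg (W (some s))
        nlinarith
      refine (Finset.sum_le_sum fun s _ => hle s).trans ?_
      rw [← Finset.sum_mul]
      have h0 : ∑ s : (Q ⊕ K) × Bool, cc (some s) ≤ 2 + 3 * 2 := by
        rw [Fintype.sum_prod_type, Fintype.sum_sum_type]
        have h1 : ∑ q : Q, ∑ y : Bool, cc (some (Sum.inl q, y)) = 2 := by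
          simp only [hcc, Sum.elim_inl, Finset.sum_const, Finset.card_univ, Fintype.card_bool,
            nsmul_eq_mul, ← hm]
          field_simp; norm_num
        have h2 : ∑ k : K, ∑ y : Bool, cc (some (Sum.inr k, y)) ≤ 3 * 2 := by
          simp only [hcc, Sum.elim_inr, Finset.sum_const, Finset.card_univ, Fintype.card_bool,
            nsmul_eq_mul]
          rw [← Finset.mul_sum]
          push_cast
          linarith
        rw [h1]; linarith
      nlinarith
  rw [hLHS] at hz3
  have hz4 := hz3.trans hRHS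
  have hposq : ∀ q, 0 ≤ 1 / (m:ℝ) * (Real.exp (tq q) + Real.exp (- tq q)) := fun q => by positivity
  have hposk : ∀ k ∈ (Finset.univ : Finset K),
      ω k * Real.exp |tk k| ≤ ω k * (Real.exp (tk k) + Real.exp (- tk k)) :=
    fun k _ => mul_le_mul_of_nonneg_left (exp_abs_le _) (hω k)
  have hlinle : 1 / ε + ⟪U, X⟫ ≤ 1 / ε * Real.exp (ε * ⟪U, X⟫) := by
    have h1 := Real.add_one_le_exp (ε * ⟪U, X⟫)
    have h2 : 0 ≤ 1 / ε := by positivity
    have h3 := mul_le_mul_of_nonneg_left h1 h2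
    have h4 : 1 / ε * (ε * ⟪U, X⟫ + 1) = 1 / ε + ⟪U, X⟫ := by field_simp; ring
    linarith
  have htk3 : ∀ k, |tk k| = |∑ i ∈ A, (z i - x i) * a i k| / (8 * Real.sqrt 3) := by
    intro k
    have : tk k = (∑ i ∈ A, (z i - x i) * a i k) / (8 * Real.sqrt 3) := by
      simp only [htk, he]
      rw [inner_smul_left, hform]
      have : ∀ i, (0:ℝ) + ∑ k', (if k' = k then (1:ℝ) else 0) * a i k' = a i k := by
        intro i; simp
      simp only [this]
      simp
      field_simp
    rw [this, abs_div, abs_of_pos (by positivity : 0 < 8 * Real.sqrt 3)]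
  refine ⟨z, hz1, ?_⟩
  intro q
  refine ⟨|tq q|, ?_, ?_⟩
  · have hNsq : Real.sqrt (∑ i ∈ A, α q i ^ 2 + ∑ k, β q k ^ 2) = N q := by
      rw [← formVec_norm_sq, Real.sqrt_sq (norm_nonneg _)]
    rw [hNsq]
    by_cases h0 : N q = 0
    · -- the form vanishes
      have hz : formVec A (α q) (β q) = 0 := norm_eq_zero.mp h0
      have := hform (α q) (β q)
      rw [hz, inner_zero_left] at this
      have h3 : Real.sqrt 3 ≠ 0 := by positivity
      have h6 : ∑ i ∈ A, (z i - x i) * (α q i + ∑ k, β q k * a i k) = 0 := by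
        field_simp at this
        linarith
      rw [h6, h0]; simp
    · have hNpos : 0 < N q := lt_of_le_of_ne (norm_nonneg _) (Ne.symm h0)
      have h7 : tq q = (∑ i ∈ A, (z i - x i) * (α q i + ∑ k, β q k * a i k))
          / (8 * Real.sqrt 3 * N q) := by
        simp only [htq]
        rw [inner_smul_left, hform]
        simp
        field_simp
      rw [h7, abs_div, abs_of_pos (by positivity : 0 < 8 * Real.sqrt 3 * N q)]
      apply le_of_eq
      field_simp
  · have h1 : Real.exp |tq q| / m ≤ ∑ q, 1 / (m:ℝ) * (Real.exp (tq q) + Real.exp (- tq q)) := by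
      have h2 := Finset.single_le_sum (fun q _ => hposq q) (Finset.mem_univ q)
      refine le_trans ?_ h2
      rw [div_eq_inv_mul, one_div]
      exact mul_le_mul_of_nonneg_left (exp_abs_le _) (by positivity)
    have h3 := Finset.sum_le_sum hposk
    simp only [htk3] at h3
    rw [← hlin]
    norm_num at hz4
    linarith

end forms

end Vale.Agent.P262
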