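import Vale.Agent.P262.Pick

/-!
# Good sign patterns
-/

namespace Vale.Agent.P262

open Finset

variable {ι K : Type*} [Fintype ι] [Fintype K] [DecidableEq K]

/-- A choice of signs with all the required estimates. -/
structure Good {v : ι → K → ℝ} (P : Par v) (j : ℕ) (g : Finset ι) (p q : K → ℝ)
    (z : ι → ℝ) : Prop where
  sgn : Sgn P j g z
  strong : ∀ k, j < P.j₁ k → |midp v g p q z k| ≤ P.s - 1
  act : ∀ k, P.j₁ k ≤ j → j < P.j₀ k → |∑ i ∈ g, z i * v i k| ≤ P.s
  iso : ∀ m, ∑ k ∈ univ.filter (fun k => j < P.j₁ k ∧ P.j₁ k ≤ m), midp v g p q z k ^ 2 ≤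
    (96 * Mc (Fintype.card K) P.s + 1) *
      ((univ.filter (fun k => j < P.j₁ k ∧ P.j₁ k ≤ m)).card : ℝ)
  quad : ∑ k ∈ actS P j, midp v g p q z k ^ 2 ≤
    ∑ k ∈ actS P j, ((p k + q k) / 2) ^ 2 + 962 * ((actS P j).card : ℝ)
  msq : ∑ k ∈ actS P j, rho P j k * (if 4 * P.s ^ 2 ≤ P.E k j then 0 else
      (∑ i ∈ g, z i * hvy v (th0 P.s) k i) ^ 2) ≤
    (384 * Mc (Fintype.card K) P.s + 2) * ∑ k ∈ actS P j, rho P j k

section

variable [Nonempty K] {v : ι → K → ℝ} {P : Par v} {j : ℕ} {g : Finset ι} {p q M F : K → ℝ}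

lemma frac_pay (N : Node P j g p q M F) (f : ι → ℝ) :
    |∑ i ∈ g, frac P j p q i * f i| ≤
      1 / (60 * P.s ^ 2) * Real.sqrt (∑ i ∈ g, f i ^ 2) := by
  have hs := P.s_pos
  exact cs_le g (frac P j p q) f (by positivity) (frac_sq N)

omit [Nonempty K] in
lemma z_split (z f : ι → ℝ) : ∑ i ∈ g, z i * f i =
    dev P j g p q z f + ∑ i ∈ g, frac P j p q i * f i := by
  unfold dev
  rw [← Finset.sum_add_distrib]
  apply Finset.sum_congr rfl; intro i _; ring

lemma pay_le (N : Node P j g p q M F) (z f : ι → ℝ)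
    (h : |dev P j g p q z f| ≤ (P.s - 1) * Real.sqrt (∑ i ∈ g, f i ^ 2)) :
    |∑ i ∈ g, z i * f i| ≤ P.s * Real.sqrt (∑ i ∈ g, f i ^ 2) := by
  have hs45 := P.hs
  have hs2 : (1:ℝ) ≤ P.s ^ 2 := one_le_pow₀ (by linarith)
  have hη1 : 1 / (60 * P.s ^ 2) ≤ 1 := by
    rw [div_le_one (by positivity)]; linarith
  rw [z_split (P := P) (j := j) (p := p) (q := q) z f]
  refine (abs_add_le _ _).trans ?_
  have h1 := frac_pay N f
  have h2 := mul_le_mul_of_nonneg_right hη1 (Real.sqrt_nonneg (∑ i ∈ g, f i ^ 2))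
  linarith

lemma frac_hvy (N : Node P j g p q M F) : ∀ k, P.E k j < 4 * P.s ^ 2 → j ≤ P.j₀ k →
    |∑ i ∈ g, frac P j p q i * hvy v (th0 P.s) k i| ≤ 1 := by
  intro k hE hj
  have hs := P.s_pos
  have hs45 := P.hs
  have h1 := frac_pay N (hvy v (th0 P.s) k)
  have h2 : ∑ i ∈ g, hvy v (th0 P.s) k i ^ 2 ≤ (60 * P.s ^ 2) ^ 2 := by
    have h3 : ∑ i ∈ g, hvy v (th0 P.s) k i ^ 2 ≤ ∑ i ∈ g, hvy v (th0 P.s) k i := by
      apply Finset.sum_le_sum
      intro i _
      have h4 := hvy_nonneg v (th0 P.s) k i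
      have h5 := (hvy_le_abs v (th0 P.s) k i).trans (P.abs_v_le i k)
      nlinarith
    have h4 := N.mass k hE hj
    have h5 := (N.M0 k).2
    have h6 : 800 * P.s ^ 2 * P.E k j ≤ 800 * P.s ^ 2 * (4 * P.s ^ 2) :=
      mul_le_mul_of_nonneg_left hE.le (by positivity)
    have h7 : P.s ≤ P.s ^ 4 := by
      calc P.s = P.s ^ 1 := (pow_one _).symm
        _ ≤ P.s ^ 4 := pow_le_pow_right₀ (by linarith) (by norm_num)
    have h8 : 800 * P.s ^ 2 * (4 * P.s ^ 2) = 3200 * P.s ^ 4 := by ring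
    have h9 : (60 * P.s ^ 2) ^ 2 = 3600 * P.s ^ 4 := by ring
    rw [h9]
    have h10 : 0 ≤ P.s ^ 4 := by positivity
    linarith
  have h3 : Real.sqrt (∑ i ∈ g, hvy v (th0 P.s) k i ^ 2) ≤ 60 * P.s ^ 2 := by
    rw [Real.sqrt_le_left (by positivity)]; exact h2
  refine h1.trans ?_
  calc 1 / (60 * P.s ^ 2) * Real.sqrt (∑ i ∈ g, hvy v (th0 P.s) k i ^ 2)
      ≤ 1 / (60 * P.s ^ 2) * (60 * P.s ^ 2) := mul_le_mul_of_nonneg_left h3 (by positivity)
    _ = 1 := by field_simp

lemma exp_one_le_HB (P : Par v) : Real.exp 1 ≤ Hd (Fintype.card K : ℝ) * Bd P.s := by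
  have h1 : Real.exp 1 < 2.7182818286 := Real.exp_one_lt_d9
  have h2 := one_le_Hd (K := K)
  have h3 := ten_le_Bd P.s
  nlinarith

lemma good_iso (N : Node P j g p q M F) (z : ι → ℝ) (h2 : G2 P j g p q z ≤ Bd P.s) (m : ℕ) :
    ∑ k ∈ univ.filter (fun k => j < P.j₁ k ∧ P.j₁ k ≤ m), midp v g p q z k ^ 2 ≤
    (96 * Mc (Fintype.card K) P.s + 1) *
      ((univ.filter (fun k => j < P.j₁ k ∧ P.j₁ k ≤ m)).card : ℝ) := by
  have hH1 := one_le_Hd (K := K)
  set S := univ.filter (fun k => j < P.j₁ k ∧ P.j₁ k ≤ m) with hS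
  set X : K → ℝ := fun k => dev P j g p q z (fun i => v i k) with hX
  have hSs : S ⊆ strS P j := by
    intro k hk
    rw [hS, Finset.mem_filter] at hk
    rw [strS, Finset.mem_filter]; exact ⟨hk.1, hk.2.1⟩
  have hrkS : ∀ k ∈ S, rk P j k ≤ (S.card : ℝ) := by
    intro k hk
    unfold rk
    have : (strS P j).filter (fun l => P.j₁ l ≤ P.j₁ k) ⊆ S := by
      intro l hl
      rw [hS, Finset.mem_filter] at hk ⊢
      rw [Finset.mem_filter, strS, Finset.mem_filter] at hl
      exact ⟨Finset.mem_univ _, hl.1.2, hl.2.trans hk.2.2⟩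
    exact_mod_cast Finset.card_le_card this
  have hexpS : ∑ k ∈ S, 1 * Real.exp (|X k| / (8 * Real.sqrt 3)) ≤
      (S.card : ℝ) * (Hd (Fintype.card K) * Bd P.s) := by
    have h1 : ∀ k ∈ S, 1 * Real.exp (|X k| / (8 * Real.sqrt 3)) ≤
        (S.card : ℝ) * Hd (Fintype.card K) *
          (1 / (rk P j k * Hd (Fintype.card K)) * Real.exp (|X k| / (8 * Real.sqrt 3))) := by
      intro k hk
      have h2 := one_le_rk P (hSs hk)
      have h3 := hrkS k hk
      rw [← mul_assoc]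
      apply mul_le_mul_of_nonneg_right _ (Real.exp_pos _).le
      rw [mul_one_div, le_div_iff₀ (by positivity), one_mul]
      exact mul_le_mul_of_nonneg_right h3 (by linarith)
    refine (Finset.sum_le_sum h1).trans ?_
    rw [← Finset.mul_sum]
    have h3 : ∑ k ∈ S, 1 / (rk P j k * Hd (Fintype.card K)) *
        Real.exp (|X k| / (8 * Real.sqrt 3)) ≤ G2 P j g p q z :=
      Finset.sum_le_sum_of_subset_of_nonneg hSs fun k hk _ => by
        have := one_le_rk P hk
        positivity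
    calc _ ≤ (S.card : ℝ) * Hd (Fintype.card K) * Bd P.s :=
          mul_le_mul_of_nonneg_left (h3.trans h2) (by positivity)
      _ = _ := by ring
  have h1 := moment_bound S (fun _ => 1) (fun k => |X k| / (8 * Real.sqrt 3)) (W := (S.card : ℝ))
    (B := Hd (Fintype.card K) * Bd P.s)
    (fun k _ => by positivity) (fun _ _ => zero_le_one) (by simp) (exp_one_le_HB P) hexpS
  have h2 : ∀ k ∈ S, midp v g p q z k ^ 2 ≤ 1 + 96 * (1 * (|X k| / (8 * Real.sqrt 3)) ^ 2) := by
    intro k hk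
    obtain ⟨r, hr, hr2⟩ := mid_strong N z k ((Finset.mem_filter.mp (hSs hk)).2)
    rw [hr2, div_pow, c8_sq, sq_abs]
    have hr3 : r ^ 2 ≤ 1 := by
      rw [← sq_abs]; nlinarith [abs_nonneg r]
    nlinarith [sq_nonneg (r - X k)]
  refine (Finset.sum_le_sum h2).trans ?_
  rw [Finset.sum_add_distrib, ← Finset.mul_sum, Finset.sum_const, nsmul_eq_mul, mul_one]
  unfold Mc Ac
  nlinarith

lemma good_quad (N : Node P j g p q M F) (z : ι → ℝ) (h1 : G1 P j g p q z ≤ 10) :
    ∑ k ∈ actS P j, midp v g p q z k ^ 2 ≤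
    ∑ k ∈ actS P j, ((p k + q k) / 2) ^ 2 + 962 * ((actS P j).card : ℝ) := by
  have hs45 := P.hs
  have hs := P.s_pos
  set X : K → ℝ := fun k => dev P j g p q z (fun i => v i k) with hX
  set nP : ℝ := ((actS P j).card : ℝ) with hnP
  have hn0 : 0 ≤ nP := Nat.cast_nonneg _
  have h2 : ∑ k ∈ actS P j, (X k ^ 2 / 4 + uk P j g p q k * X k) ≤ 960 * nP := by
    have h3 : ∀ k ∈ actS P j, X k ^ 2 / 4 + uk P j g p q k * X k ≤
        96 * nP * (1 / nP * (Real.exp (|X k| / (8 * Real.sqrt 3)) +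
          uk P j g p q k * X k / 96)) := by
      intro k hk
      have hnP0 : 0 < nP := by
        rw [hnP]; exact_mod_cast Finset.card_pos.mpr ⟨k, hk⟩
      have h4 := half_sq_le_exp (t := |X k| / (8 * Real.sqrt 3)) (by positivity)
      have h5 : (|X k| / (8 * Real.sqrt 3)) ^ 2 / 2 = X k ^ 2 / 384 := by
        rw [div_pow, c8_sq, sq_abs]; ring
      rw [h5] at h4
      have h6 : 96 * nP * (1 / nP * (Real.exp (|X k| / (8 * Real.sqrt 3)) +
          uk P j g p q k * X k / 96)) =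
          96 * Real.exp (|X k| / (8 * Real.sqrt 3)) + uk P j g p q k * X k := by
        field_simp
      rw [h6]; linarith
    refine (Finset.sum_le_sum h3).trans ?_
    rw [← Finset.mul_sum]
    calc _ = 96 * nP * G1 P j g p q z := rfl
      _ ≤ 96 * nP * 10 := mul_le_mul_of_nonneg_left h1 (by positivity)
      _ = _ := by ring
  have h3 : ∀ k ∈ actS P j, midp v g p q z k ^ 2 ≤
      ((p k + q k) / 2) ^ 2 + 2 + (X k ^ 2 / 4 + uk P j g p q k * X k) := by
    intro k hk
    rw [mid_eq (P := P) (j := j) z k]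
    have h4 := pq_bound N k hk
    obtain ⟨-, hk1, hk2⟩ := Finset.mem_filter.mp hk
    have h5 := ek_act N k (not_lt.mpr hk1)
    have h6 : uk P j g p q k ^ 2 ≤ ((p k + q k) / 2) ^ 2 + 2 := by
      unfold uk
      have h7 : |(p k + q k) / 2 * ek P j g p q k| ≤ 1 := by
        rw [abs_mul]
        calc |(p k + q k) / 2| * |ek P j g p q k| ≤ 4 * P.s ^ 2 * (1 / (20 * P.s ^ 3)) :=
              mul_le_mul h4 h5 (abs_nonneg _) (by positivity)
          _ ≤ 1 := by
              rw [mul_one_div, div_le_one (by positivity)]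
              have : P.s ^ 3 = P.s * P.s ^ 2 := by ring
              rw [this]; nlinarith [sq_nonneg P.s]
      have h8 := (abs_le.mp h7).2
      have h9 : ek P j g p q k ^ 2 ≤ 1 := by
        have h10 := h5.trans (inv_le_twentieth (P := P))
        rw [← sq_abs]; nlinarith [abs_nonneg (ek P j g p q k)]
      nlinarith
    change (uk P j g p q k + X k / 2) ^ 2 ≤ _
    nlinarith
  refine (Finset.sum_le_sum h3).trans ?_
  rw [Finset.sum_add_distrib, Finset.sum_add_distrib, Finset.sum_const, nsmul_eq_mul, ← hnP]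
  linarith

lemma good_msq (N : Node P j g p q M F) (z : ι → ℝ) (h1 : G3 P j g p q z ≤ Bd P.s) :
    ∑ k ∈ actS P j, rho P j k * (if 4 * P.s ^ 2 ≤ P.E k j then 0 else
      (∑ i ∈ g, z i * hvy v (th0 P.s) k i) ^ 2) ≤
    (384 * Mc (Fintype.card K) P.s + 2) * ∑ k ∈ actS P j, rho P j k := by
  have hH1 := one_le_Hd (K := K)
  have hB := ten_le_Bd P.s
  set Y : K → ℝ := fun k => dev P j g p q z (hvy v (th0 P.s) k) with hY
  set Ω : ℝ := ∑ k ∈ actS P j, rho P j k with hΩ
  have hΩ0 : 0 ≤ Ω := Finset.sum_nonneg fun k _ => (rho_pos P j k).le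
  have h2 : ∑ k ∈ actS P j, rho P j k * Real.exp (|Y k| / (8 * Real.sqrt 3)) ≤
      Ω * (Hd (Fintype.card K) * Bd P.s) := by
    by_cases h0 : Ω = 0
    · have hemp : actS P j = ∅ := by
        by_contra hne
        have : 0 < Ω := Finset.sum_pos (fun k _ => rho_pos P j k)
          (Finset.nonempty_of_ne_empty hne)
        linarith
      rw [hemp, Finset.sum_empty, h0, zero_mul]
    · have hΩp : 0 < Ω := lt_of_le_of_ne hΩ0 (Ne.symm h0)
      have h3 : ∑ k ∈ actS P j, rho P j k * Real.exp (|Y k| / (8 * Real.sqrt 3)) =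
          Ω * G3 P j g p q z := by
        unfold G3
        rw [Finset.mul_sum]
        apply Finset.sum_congr rfl
        intro k _
        rw [← hΩ]
        field_simp
        rfl
      rw [h3]
      apply mul_le_mul_of_nonneg_left _ hΩ0
      nlinarith
  have h3 := moment_bound (actS P j) (rho P j) (fun k => |Y k| / (8 * Real.sqrt 3)) (W := Ω)
    (B := Hd (Fintype.card K) * Bd P.s)
    (fun k _ => by positivity) (fun k _ => (rho_pos P j k).le) rfl (exp_one_le_HB P) h2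
  have h4 : ∀ k ∈ actS P j, rho P j k * (if 4 * P.s ^ 2 ≤ P.E k j then 0 else
      (∑ i ∈ g, z i * hvy v (th0 P.s) k i) ^ 2) ≤
      rho P j k * 2 + 384 * (rho P j k * (|Y k| / (8 * Real.sqrt 3)) ^ 2) := by
    intro k hk
    obtain ⟨-, hk1, hk2⟩ := Finset.mem_filter.mp hk
    have hr := rho_pos P j k
    have h5 : (if 4 * P.s ^ 2 ≤ P.E k j then 0 else
      (∑ i ∈ g, z i * hvy v (th0 P.s) k i) ^ 2) ≤ 2 + 384 * (|Y k| / (8 * Real.sqrt 3)) ^ 2 := by
      split_ifs with hE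
      · positivity
      · rw [z_split (P := P) (j := j) (p := p) (q := q), div_pow, c8_sq, sq_abs]
        have h6 := frac_hvy N k (not_le.mp hE) hk2.le
        have h7 : (∑ i ∈ g, frac P j p q i * hvy v (th0 P.s) k i) ^ 2 ≤ 1 := by
          rw [← sq_abs]; nlinarith [abs_nonneg (∑ i ∈ g, frac P j p q i * hvy v (th0 P.s) k i)]
        change (Y k + ∑ i ∈ g, frac P j p q i * hvy v (th0 P.s) k i) ^ 2 ≤ _
        nlinarith [sq_nonneg (Y k - ∑ i ∈ g, frac P j p q i * hvy v (th0 P.s) k i)]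
    have := mul_le_mul_of_nonneg_left h5 hr.le
    linarith
  refine (Finset.sum_le_sum h4).trans ?_
  rw [Finset.sum_add_distrib, ← Finset.mul_sum, ← Finset.sum_mul]
  change Ω * 2 + _ ≤ (384 * Mc (Fintype.card K) P.s + 2) * Ω
  unfold Mc Ac
  nlinarith

theorem exists_good [DecidableEq ι] (N : Node P j g p q M F) :
    ∃ z : ι → ℝ, Good P j g p q z := by
  obtain ⟨z, hz1, hforms, hG1, hG2, hG3⟩ := exists_z N
  have hs := P.s_pos
  have hs45 := P.hs
  have hXle : ∀ k, |dev P j g p q z (fun i => v i k)| ≤ P.s - 1 := by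
    intro k
    have h1 := hforms (Sum.inl (Sum.inl k))
    simpa [fα, fβ, fa, dev] using h1
  have hYle : ∀ k, |dev P j g p q z (hvy v (th0 P.s) k)| ≤ P.s - 1 := by
    intro k
    have h1 := hforms (Sum.inl (Sum.inr k))
    simpa [fα, fβ, fa, dev] using h1
  refine ⟨z, ⟨⟨hz1, ?_, ?_, ?_, ?_⟩, ?_, ?_, good_iso N z hG2, good_quad N z hG1,
    good_msq N z hG3⟩⟩
  · intro k l
    apply pay_le N
    have h1 := hforms (Sum.inr (Sum.inl (k, l)))
    simpa [fα, fβ, dev] using h1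
  · intro k
    apply pay_le N
    have h1 := hforms (Sum.inr (Sum.inr (Sum.inl k)))
    simpa [fα, fβ, dev] using h1
  · intro k
    apply pay_le N
    have h1 := hforms (Sum.inr (Sum.inr (Sum.inr k)))
    simpa [fα, fβ, dev] using h1
  · intro k hE hj
    rw [z_split (P := P) (j := j) (p := p) (q := q)]
    refine (abs_add_le _ _).trans ?_
    have h1 := hYle k
    have h2 := frac_hvy N k hE hj.le
    linarith
  · -- strong
    intro k hk
    obtain ⟨r, hr, hr2⟩ := mid_strong N z k hk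
    rw [hr2]
    refine (abs_add_le _ _).trans ?_
    rw [abs_div, abs_div, abs_two]
    have := hXle k
    linarith
  · -- act
    intro k h1 h2
    rw [z_split (P := P) (j := j) (p := p) (q := q)]
    refine (abs_add_le _ _).trans ?_
    have h3 := hXle k
    have h4 := (ek_act N k (not_lt.mpr h1)).trans (inv_le_twentieth (P := P))
    unfold ek at h4
    linarith

end

end Vale.Agent.P262
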