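import Vale.Agent.P262.Core

/-!
# The state of a node of the halving tree and its children
-/

namespace Vale.Agent.P262

open Finset

variable {ι K : Type*} [Fintype ι] [Fintype K] [DecidableEq K]

/-- Bound for the exponential potential. -/
noncomputable def Bd (s : ℝ) : ℝ := 10 + (4 * s ^ 2 + 1) ^ 2 / 96

/-- Bound for harmonic sums. -/
noncomputable def Hd (d : ℝ) : ℝ := 1 + Real.log d

/-- The double-logarithmic scale. -/
noncomputable def Ac (d s : ℝ) : ℝ := Real.log (Hd d * Bd s)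

/-- Energy above which a coordinate is strong. -/
noncomputable def K1 (d s : ℝ) : ℝ := (200 * d * s ^ 5) ^ 2

/-- The base threshold between light and heavy. -/
noncomputable def th0 (s : ℝ) : ℝ := 1 / (100 * s ^ 2)

/-- Parameters of the construction. -/
structure Par (v : ι → K → ℝ) where
  lam : K → ℝ
  s : ℝ
  n₀ : ℕ
  j₁ : K → ℕ
  hv : ∀ i, ∑ k, v i k ^ 2 ≤ 1
  hgram : ∀ k l, ∑ i, v i k * v i l = if k = l then lam k else 0
  hs : 45 ≤ s
  hn1 : 1 ≤ n₀
  hn : (n₀ : ℝ) + 1 ≤ 4 * s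
  hL : 8 * Real.sqrt 3 * Real.log
    (((Fintype.card K : ℝ) ^ 2 + 4 * Fintype.card K) * Bd s) ≤ s - 1
  hj : ∀ k j, j < j₁ k ↔ K1 (Fintype.card K) s ≤ lam k / 2 ^ j
  hK : K1 (Fintype.card K) s / 2 ^ n₀ ≤ th0 s ^ 2

namespace Par

variable {v : ι → K → ℝ} (P : Par v)

/-- Expected energy of coordinate `k` at depth `j`. -/
noncomputable def E (k : K) (j : ℕ) : ℝ := P.lam k / 2 ^ j

/-- Depth at which coordinate `k` is frozen. -/
def j₀ (k : K) : ℕ := P.j₁ k + P.n₀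

/-- Light threshold for coordinate `k` at depth `j`. -/
noncomputable def θ (k : K) (j : ℕ) : ℝ := th0 P.s * (4 / 5) ^ (j - P.j₀ k)

lemma lam_nonneg (k : K) : 0 ≤ P.lam k := by
  have := P.hgram k k
  rw [if_pos rfl] at this
  rw [← this]
  exact Finset.sum_nonneg fun i _ => mul_self_nonneg _

lemma E_nonneg (k : K) (j : ℕ) : 0 ≤ P.E k j := div_nonneg (P.lam_nonneg k) (by positivity)

lemma E_succ (k : K) (j : ℕ) : P.E k (j + 1) = P.E k j / 2 := by
  unfold E; rw [pow_succ]; field_simp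

lemma s_pos : 0 < P.s := by have := P.hs; linarith

lemma th0_pos : 0 < th0 P.s := by
  unfold th0; have := P.s_pos; positivity

lemma s2_th0 : P.s ^ 2 * th0 P.s = 1 / 100 := by
  unfold th0; have := P.s_pos; field_simp

lemma θ_pos (k : K) (j : ℕ) : 0 < P.θ k j := by
  unfold θ; have := P.th0_pos; positivity

lemma θ_eq {k : K} {j : ℕ} (h : j ≤ P.j₀ k) : P.θ k j = th0 P.s := by
  unfold θ; rw [Nat.sub_eq_zero_of_le h]; simp

lemma θ_succ {k : K} {j : ℕ} (h : P.j₀ k ≤ j) : P.θ k (j + 1) = 4 / 5 * P.θ k j := by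
  unfold θ
  rw [Nat.succ_sub h, pow_succ]; ring

lemma s2_θ (k : K) (j : ℕ) : P.s ^ 2 * P.θ k j = (4 / 5) ^ (j - P.j₀ k) / 100 := by
  unfold θ
  rw [← mul_assoc, P.s2_th0]; ring

include P in
lemma abs_v_le (i : ι) (k : K) : |v i k| ≤ 1 := by
  apply abs_le_of_sq_le_sq _ zero_le_one
  rw [one_pow]
  exact (Finset.single_le_sum (f := fun k => v i k ^ 2) (fun _ _ => sq_nonneg _)
    (Finset.mem_univ k)).trans (P.hv i)

lemma E_j₀ (k : K) : P.E k (P.j₀ k) ≤ th0 P.s ^ 2 := by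
  have h1 : ¬ (K1 (Fintype.card K) P.s ≤ P.lam k / 2 ^ (P.j₁ k)) := by
    rw [← P.hj]; exact lt_irrefl _
  have h2 := P.hK
  unfold E j₀
  rw [pow_add, ← div_div]
  refine le_trans ?_ h2
  apply div_le_div_of_nonneg_right (not_le.mp h1).le (by positivity)

lemma K1_ge [Nonempty K] : 4 * P.s ^ 2 ≤ K1 (Fintype.card K) P.s := by
  unfold K1
  have hs := P.hs
  have hd : (1:ℝ) ≤ Fintype.card K := by exact_mod_cast Fintype.card_pos
  have h1 : P.s ≤ P.s ^ 5 := by
    calc P.s = P.s ^ 1 := (pow_one _).symm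
      _ ≤ P.s ^ 5 := pow_le_pow_right₀ (by linarith) (by norm_num)
  have h2 : 2 * P.s ≤ 200 * Fintype.card K * P.s ^ 5 := by
    have h3 : (0:ℝ) ≤ P.s ^ 5 := by positivity
    nlinarith
  have h3 : 0 ≤ 2 * P.s := by linarith
  nlinarith

/-- Below the moderate energy a coordinate is not strong. -/
lemma j₁_le_of_E [Nonempty K] {k : K} {j : ℕ} (h : P.E k j < 4 * P.s ^ 2) : P.j₁ k ≤ j := by
  by_contra hc
  have := (P.hj k j).mp (not_le.mp hc)
  have h2 := P.K1_ge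
  unfold E at h
  linarith

end Par

/-- The invariants of a node. -/
structure Node {v : ι → K → ℝ} (P : Par v) (j : ℕ) (g : Finset ι) (p q M F : K → ℝ) : Prop where
  sum : ∀ k, q k - p k = ∑ i ∈ g, v i k
  gram : ∀ k l, 4 * P.s ^ 2 ≤ P.E l j →
    |∑ i ∈ g, v i k * v i l - (if k = l then P.E l j else 0)| ≤ 5 * P.s * Real.sqrt (P.E l j)
  M0 : ∀ k, 0 ≤ M k ∧ M k ≤ P.s
  F0 : ∀ k, 0 ≤ F k
  mass : ∀ k, P.E k j < 4 * P.s ^ 2 → j ≤ P.j₀ k →
    ∑ i ∈ g, hvy v (th0 P.s) k i ≤ M k + 800 * P.s ^ 2 * P.E k j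
  len : ∀ k, j ≤ P.j₀ k →
    ∑ i ∈ g, lsq v (th0 P.s) k i ≤ (Real.sqrt (P.E k j) + 5 / 4 * (P.s * th0 P.s)) ^ 2
  ls : ∀ k, P.E k j < 4 * P.s ^ 2 → j ≤ P.j₀ k →
    |∑ i ∈ g, llin v (th0 P.s) k i| ≤ (800 * P.s ^ 2 + 4) * P.E k j +
      5 / 2 * P.s * Real.sqrt (P.E k j) + 1 / 50
  strong : ∀ k, j < P.j₁ k → |p k| ≤ P.s - 1 ∧ |q k| ≤ P.s - 1
  act : ∀ k, P.j₁ k ≤ j → j ≤ P.j₀ k →
    |p k| ≤ P.s * (1 + ((j : ℝ) - P.j₁ k)) ∧ |q k| ≤ P.s * (1 + ((j : ℝ) - P.j₁ k))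
  wlen : ∀ k, P.j₀ k ≤ j → ∑ i ∈ g, lsq v (P.θ k j) k i ≤ (4 * P.s * P.θ k j) ^ 2
  wsum : ∀ k, P.j₀ k ≤ j → |∑ i ∈ g, llin v (P.θ k j) k i| ≤ 2 * (4 / 5) ^ (j - P.j₀ k)
  wpos : ∀ k, P.j₀ k ≤ j → |p k| + ∑ i ∈ g, hvy v (P.θ k j) k i ≤
    Real.sqrt (F k) + 2 * M k + 3 + 6 * (1 - (4 / 5) ^ (j - P.j₀ k))

/-- Sign patterns controlling the group payloads. -/
structure Sgn {v : ι → K → ℝ} (P : Par v) (j : ℕ) (g : Finset ι) (z : ι → ℝ) : Prop where
  one : ∀ i ∈ g, z i = 1 ∨ z i = -1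
  pair : ∀ k l, |∑ i ∈ g, z i * (v i k * v i l)| ≤
    P.s * Real.sqrt (∑ i ∈ g, (v i k * v i l) ^ 2)
  lsq : ∀ k, |∑ i ∈ g, z i * lsq v (P.θ k j) k i| ≤
    P.s * Real.sqrt (∑ i ∈ g, lsq v (P.θ k j) k i ^ 2)
  llin : ∀ k, |∑ i ∈ g, z i * llin v (P.θ k j) k i| ≤
    P.s * Real.sqrt (∑ i ∈ g, llin v (P.θ k j) k i ^ 2)
  hvy : ∀ k, P.E k j < 4 * P.s ^ 2 → j < P.j₀ k →
    |∑ i ∈ g, z i * hvy v (th0 P.s) k i| ≤ P.s

/-- Half of a group. -/
structure Half (g g' : Finset ι) (z : ι → ℝ) : Prop where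
  sub : g' ⊆ g
  half : ∀ α : ι → ℝ, |∑ i ∈ g', α i - (∑ i ∈ g, α i) / 2| = |∑ i ∈ g, z i * α i| / 2

/-- New mass record. -/
noncomputable def newM {v : ι → K → ℝ} (P : Par v) (j : ℕ) (g : Finset ι) (z : ι → ℝ)
    (M : K → ℝ) (k : K) : ℝ :=
  if P.j₀ k ≤ j then M k else if 4 * P.s ^ 2 ≤ P.E k j then 0 else
    (M k + |∑ i ∈ g, z i * hvy v (th0 P.s) k i|) / 2

/-- New position record. -/
noncomputable def newF {v : ι → K → ℝ} (P : Par v) (j : ℕ) (p' q' : K → ℝ)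
    (F : K → ℝ) (k : K) : ℝ :=
  if P.j₀ k ≤ j then F k else min (p' k ^ 2) (q' k ^ 2)

lemma diag_le {v : ι → K → ℝ} {P : Par v} {j : ℕ} {g : Finset ι} {p q M F : K → ℝ}
    (N : Node P j g p q M F) {l : K} (h : 4 * P.s ^ 2 ≤ P.E l j) :
    ∑ i ∈ g, v i l ^ 2 ≤ 4 * P.E l j := by
  have h1 := N.gram l l h
  rw [if_pos rfl] at h1
  have h2 : ∑ i ∈ g, v i l * v i l = ∑ i ∈ g, v i l ^ 2 := by
    apply Finset.sum_congr rfl; intro i _; ring
  rw [h2] at h1
  have h3 := (abs_le.mp h1).2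
  have hs := P.s_pos
  have hE := P.E_nonneg l j
  have h4 : 2 * P.s ≤ Real.sqrt (P.E l j) := by
    apply Real.le_sqrt_of_sq_le; nlinarith
  have h5 : Real.sqrt (P.E l j) ^ 2 = P.E l j := Real.sq_sqrt hE
  nlinarith [Real.sqrt_nonneg (P.E l j)]

theorem child_core [Nonempty K] {v : ι → K → ℝ} {P : Par v} {j : ℕ} {g g' : Finset ι}
    {p q M F p' q' : K → ℝ} {z : ι → ℝ}
    (N : Node P j g p q M F) (Z : Sgn P j g z) (H : Half g g' z)
    (hsum : ∀ k, q' k - p' k = ∑ i ∈ g', v i k)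
    (hstrong : ∀ k, j < P.j₁ k → |p' k| ≤ P.s - 1 ∧ |q' k| ≤ P.s - 1)
    (hact : ∀ k, P.j₁ k ≤ j → j < P.j₀ k →
      |p' k| ≤ P.s * (1 + ((j : ℝ) + 1 - P.j₁ k)) ∧ |q' k| ≤ P.s * (1 + ((j : ℝ) + 1 - P.j₁ k)))
    (hwpos : ∀ k, P.j₀ k ≤ j → |p' k| + ∑ i ∈ g', hvy v (P.θ k j) k i ≤
      |p k| + ∑ i ∈ g, hvy v (P.θ k j) k i + (|∑ i ∈ g, llin v (P.θ k j) k i| +
        |∑ i ∈ g, z i * llin v (P.θ k j) k i|) / 2) :
    Node P (j + 1) g' p' q' (newM P j g z M) (newF P j p' q' F) := by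
  have hs := P.s_pos
  have hs45 := P.hs
  have hth := P.th0_pos
  have hsth := P.s2_th0
  -- halving estimates
  have hup : ∀ α : ι → ℝ, ∑ i ∈ g', α i ≤ (∑ i ∈ g, α i) / 2 + |∑ i ∈ g, z i * α i| / 2 := by
    intro α
    have h1 := H.half α
    have h2 := le_abs_self (∑ i ∈ g', α i - (∑ i ∈ g, α i) / 2)
    linarith
  have habs : ∀ α : ι → ℝ, |∑ i ∈ g', α i| ≤ |∑ i ∈ g, α i| / 2 + |∑ i ∈ g, z i * α i| / 2 := by
    intro α
    have h1 := H.half α
    have h2 := abs_sub_abs_le_abs_sub (∑ i ∈ g', α i) ((∑ i ∈ g, α i) / 2)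
    have h3 : |(∑ i ∈ g, α i) / 2| = |∑ i ∈ g, α i| / 2 := by
      rw [abs_div]; norm_num
    linarith
  have hmono : ∀ α : ι → ℝ, (∀ i, 0 ≤ α i) → ∑ i ∈ g', α i ≤ ∑ i ∈ g, α i := fun α hα =>
    Finset.sum_le_sum_of_subset_of_nonneg H.sub fun i _ _ => hα i
  -- light energy payload in the early phase
  have hlsqz : ∀ k, j ≤ P.j₀ k → |∑ i ∈ g, z i * lsq v (th0 P.s) k i| ≤
      P.s * th0 P.s * Real.sqrt (∑ i ∈ g, lsq v (th0 P.s) k i) := by
    intro k hk
    have h1 := Z.lsq k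
    rw [P.θ_eq hk] at h1
    have h2 : Real.sqrt (∑ i ∈ g, lsq v (th0 P.s) k i ^ 2) ≤
        th0 P.s * Real.sqrt (∑ i ∈ g, lsq v (th0 P.s) k i) := by
      have : ∑ i ∈ g, lsq v (th0 P.s) k i ^ 2 ≤ th0 P.s ^ 2 * ∑ i ∈ g, lsq v (th0 P.s) k i := by
        rw [Finset.mul_sum]
        exact Finset.sum_le_sum fun i _ => lsq_sq_le hth.le k i
      calc Real.sqrt (∑ i ∈ g, lsq v (th0 P.s) k i ^ 2)
          ≤ Real.sqrt (th0 P.s ^ 2 * ∑ i ∈ g, lsq v (th0 P.s) k i) := Real.sqrt_le_sqrt this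
        _ = _ := by rw [Real.sqrt_mul (by positivity), Real.sqrt_sq hth.le]
    calc _ ≤ _ := h1
      _ ≤ P.s * (th0 P.s * Real.sqrt (∑ i ∈ g, lsq v (th0 P.s) k i)) :=
          mul_le_mul_of_nonneg_left h2 hs.le
      _ = _ := by ring
  -- gram at the child
  have cgram : ∀ k l, 4 * P.s ^ 2 ≤ P.E l (j + 1) →
      |∑ i ∈ g', v i k * v i l - (if k = l then P.E l (j + 1) else 0)| ≤
        5 * P.s * Real.sqrt (P.E l (j + 1)) := by
    intro k l hE
    have hE0 := P.E_nonneg l j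
    rw [P.E_succ] at hE ⊢
    have hE1 : 4 * P.s ^ 2 ≤ P.E l j := by nlinarith
    have h1 := N.gram k l hE1
    have h2 := Z.pair k l
    have h3 := H.half (fun i => v i k * v i l)
    have h4 : Real.sqrt (∑ i ∈ g, (v i k * v i l) ^ 2) ≤ 2 * Real.sqrt (P.E l j) := by
      have h5 : ∑ i ∈ g, (v i k * v i l) ^ 2 ≤ 4 * P.E l j := by
        refine le_trans (Finset.sum_le_sum ?_) (diag_le N hE1)
        intro i _
        have h6 := P.abs_v_le i k
        have h7 : v i k ^ 2 ≤ 1 := by rw [← sq_abs]; nlinarith [abs_nonneg (v i k)]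
        rw [mul_pow]
        nlinarith [sq_nonneg (v i l)]
      calc Real.sqrt (∑ i ∈ g, (v i k * v i l) ^ 2) ≤ Real.sqrt (4 * P.E l j) :=
            Real.sqrt_le_sqrt h5
        _ = 2 * Real.sqrt (P.E l j) := by
            rw [Real.sqrt_mul (by norm_num), show (4:ℝ) = 2 ^ 2 by norm_num,
              Real.sqrt_sq (by norm_num)]
    have h6 := sqrt_half_ge hE0
    have h7 : |∑ i ∈ g, z i * (v i k * v i l)| ≤ P.s * (2 * Real.sqrt (P.E l j)) :=
      h2.trans (mul_le_mul_of_nonneg_left h4 hs.le)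
    have h8 : ∑ i ∈ g', v i k * v i l - (if k = l then P.E l j / 2 else 0) =
        (∑ i ∈ g', v i k * v i l - (∑ i ∈ g, v i k * v i l) / 2) +
        (∑ i ∈ g, v i k * v i l - (if k = l then P.E l j else 0)) / 2 := by
      split_ifs <;> ring
    rw [h8]
    refine (abs_add_le _ _).trans ?_
    rw [h3, abs_div, abs_two]
    have h9 : 5 * P.s * (7 / 10 * Real.sqrt (P.E l j)) ≤ 5 * P.s * Real.sqrt (P.E l j / 2) :=
      mul_le_mul_of_nonneg_left h6 (by positivity)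
    linarith
  -- masses at the child
  have cM0 : ∀ k, 0 ≤ newM P j g z M k ∧ newM P j g z M k ≤ P.s := by
    intro k
    have hM := N.M0 k
    unfold newM
    split_ifs with h1 h2
    · exact hM
    · exact ⟨le_refl _, hs.le⟩
    · have h3 := Z.hvy k (not_le.mp h2) (not_le.mp h1)
      have h4 := abs_nonneg (∑ i ∈ g, z i * hvy v (th0 P.s) k i)
      constructor <;> linarith
  have hinv : ∀ a : ℝ, a / th0 P.s = 100 * P.s ^ 2 * a := by
    intro a; unfold th0; field_simp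
  have cmass : ∀ k, P.E k (j + 1) < 4 * P.s ^ 2 → j + 1 ≤ P.j₀ k →
      ∑ i ∈ g', hvy v (th0 P.s) k i ≤ newM P j g z M k + 800 * P.s ^ 2 * P.E k (j + 1) := by
    intro k hE hj
    rw [P.E_succ] at hE ⊢
    have hj' : ¬ P.j₀ k ≤ j := by omega
    unfold newM
    rw [if_neg hj']
    split_ifs with h2
    · have h3 := diag_le N h2
      have h4 : ∑ i ∈ g', hvy v (th0 P.s) k i ≤ ∑ i ∈ g, v i k ^ 2 / th0 P.s := by
        refine (hmono _ fun i => hvy_nonneg v _ k i).trans ?_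
        exact Finset.sum_le_sum fun i _ => hvy_le_sq_div hth k i
      rw [← Finset.sum_div, hinv] at h4
      have h5 : 100 * P.s ^ 2 * ∑ i ∈ g, v i k ^ 2 ≤ 100 * P.s ^ 2 * (4 * P.E k j) :=
        mul_le_mul_of_nonneg_left h3 (by positivity)
      linarith
    · have h3 := hup (hvy v (th0 P.s) k)
      have h4 := N.mass k (not_le.mp h2) (by omega)
      linarith
  -- light energy at the child
  have clen : ∀ k, j + 1 ≤ P.j₀ k → ∑ i ∈ g', lsq v (th0 P.s) k i ≤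
      (Real.sqrt (P.E k (j + 1)) + 5 / 4 * (P.s * th0 P.s)) ^ 2 := by
    intro k hj
    rw [P.E_succ]
    apply len_step (P.E_nonneg k j) (by positivity) (N.len k (by omega))
    have h1 := hup (lsq v (th0 P.s) k)
    have h2 := hlsqz k (by omega)
    linarith
  -- light sums at the child
  have cls : ∀ k, P.E k (j + 1) < 4 * P.s ^ 2 → j + 1 ≤ P.j₀ k →
      |∑ i ∈ g', llin v (th0 P.s) k i| ≤ (800 * P.s ^ 2 + 4) * P.E k (j + 1) +
        5 / 2 * P.s * Real.sqrt (P.E k (j + 1)) + 1 / 50 := by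
    intro k hE hj
    rw [P.E_succ] at hE ⊢
    have hE0 := P.E_nonneg k j
    have hsq := sqrt_half_ge hE0
    by_cases h2 : 4 * P.s ^ 2 ≤ P.E k j
    · -- the coordinate has just become weak
      have h3 := diag_le N h2
      have h4 : ∑ i ∈ g', hvy v (th0 P.s) k i ≤ ∑ i ∈ g, v i k ^ 2 / th0 P.s := by
        refine (hmono _ fun i => hvy_nonneg v _ k i).trans ?_
        exact Finset.sum_le_sum fun i _ => hvy_le_sq_div hth k i
      rw [← Finset.sum_div, hinv] at h4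
      have h5 : 100 * P.s ^ 2 * ∑ i ∈ g, v i k ^ 2 ≤ 100 * P.s ^ 2 * (4 * P.E k j) :=
        mul_le_mul_of_nonneg_left h3 (by positivity)
      have h6 : |∑ i ∈ g', v i k - ∑ i ∈ g', llin v (th0 P.s) k i| ≤
          ∑ i ∈ g', hvy v (th0 P.s) k i := by
        rw [← Finset.sum_sub_distrib]
        refine (Finset.abs_sum_le_sum_abs _ _).trans ?_
        exact Finset.sum_le_sum fun i _ => abs_sub_llin v _ k i
      have hj1 : P.j₁ k ≤ j + 1 := by
        apply P.j₁_le_of_E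
        rw [P.E_succ]; exact hE
      have h7 : |p' k| ≤ 4 * P.s ^ 2 ∧ |q' k| ≤ 4 * P.s ^ 2 := by
        rcases Nat.lt_or_ge j (P.j₁ k) with hlt | hge
        · have := hstrong k hlt
          constructor <;> nlinarith [this.1, this.2]
        · have h8 := hact k hge (by omega)
          have h9 : (j:ℝ) + 1 - P.j₁ k ≤ P.n₀ := by
            have : j + 1 ≤ P.j₁ k + P.n₀ := hj
            have : ((j + 1 : ℕ) : ℝ) ≤ ((P.j₁ k + P.n₀ : ℕ) : ℝ) := by exact_mod_cast this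
            push_cast at this; linarith
          have h10 := P.hn
          have h11 : P.s * (1 + ((j : ℝ) + 1 - P.j₁ k)) ≤ P.s * (4 * P.s) :=
            mul_le_mul_of_nonneg_left (by linarith) hs.le
          constructor <;> nlinarith [h8.1, h8.2]
      have h8 : |∑ i ∈ g', v i k| ≤ 8 * P.s ^ 2 := by
        rw [← hsum k]
        have := abs_sub (q' k) (p' k)
        linarith [h7.1, h7.2]
      have h9 : |∑ i ∈ g', llin v (th0 P.s) k i| ≤ |∑ i ∈ g', v i k| +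
          |∑ i ∈ g', v i k - ∑ i ∈ g', llin v (th0 P.s) k i| := by
        have := abs_sub_abs_le_abs_sub (∑ i ∈ g', llin v (th0 P.s) k i) (∑ i ∈ g', v i k)
        rw [abs_sub_comm] at this
        linarith
      have h10 : 0 ≤ 5 / 2 * P.s * Real.sqrt (P.E k j / 2) := by positivity
      nlinarith
    · have h3 := habs (llin v (th0 P.s) k)
      have h4 := N.ls k (not_le.mp h2) (by omega)
      have h5 := Z.llin k
      rw [P.θ_eq (by omega : j ≤ P.j₀ k)] at h5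
      have h6 := N.len k (by omega)
      have h7 : Real.sqrt (∑ i ∈ g, llin v (th0 P.s) k i ^ 2) ≤
          Real.sqrt (P.E k j) + 5 / 4 * (P.s * th0 P.s) := by
        simp only [llin_sq]
        rw [Real.sqrt_le_left (by positivity)]
        exact h6
      have h8 : |∑ i ∈ g, z i * llin v (th0 P.s) k i| ≤
          P.s * (Real.sqrt (P.E k j) + 5 / 4 * (P.s * th0 P.s)) :=
        h5.trans (mul_le_mul_of_nonneg_left h7 hs.le)
      have h9 : P.s * (Real.sqrt (P.E k j) + 5 / 4 * (P.s * th0 P.s)) =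
          P.s * Real.sqrt (P.E k j) + 1 / 80 := by
        have : P.s * (5 / 4 * (P.s * th0 P.s)) = 5 / 4 * (P.s ^ 2 * th0 P.s) := by ring
        rw [mul_add, this, hsth]; norm_num
      rw [h9] at h8
      have h10 : 5 / 2 * P.s * (7 / 10 * Real.sqrt (P.E k j)) ≤
          5 / 2 * P.s * Real.sqrt (P.E k j / 2) := mul_le_mul_of_nonneg_left hsq (by positivity)
      linarith
  have cstrong : ∀ k, j + 1 < P.j₁ k → |p' k| ≤ P.s - 1 ∧ |q' k| ≤ P.s - 1 :=
    fun k hk => hstrong k (by omega)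
  have cact : ∀ k, P.j₁ k ≤ j + 1 → j + 1 ≤ P.j₀ k →
      |p' k| ≤ P.s * (1 + (((j + 1 : ℕ) : ℝ) - P.j₁ k)) ∧
      |q' k| ≤ P.s * (1 + (((j + 1 : ℕ) : ℝ) - P.j₁ k)) := by
    intro k h1 h2
    push_cast
    rcases Nat.lt_or_ge j (P.j₁ k) with hlt | hge
    · have h3 := hstrong k hlt
      have h4 : ((P.j₁ k : ℕ) : ℝ) = j + 1 := by
        have : P.j₁ k = j + 1 := by omega
        rw [this]; push_cast; ring
      rw [h4]
      constructor <;> nlinarith [h3.1, h3.2]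
    · exact hact k hge (by omega)
  -- quantities at the freezing depth
  have hfreeze : ∀ k, P.j₀ k = j + 1 →
      P.E k (j + 1) ≤ th0 P.s ^ 2 ∧ P.E k (j + 1) < 4 * P.s ^ 2 ∧
      800 * P.s ^ 2 * P.E k (j + 1) ≤ 1 ∧ Real.sqrt (P.E k (j + 1)) ≤ th0 P.s ∧
      |∑ i ∈ g', llin v (th0 P.s) k i| ≤ 1 := by
    intro k hk
    have h1 : P.E k (j + 1) ≤ th0 P.s ^ 2 := by
      have := P.E_j₀ k
      rwa [hk] at this
    have hth1 : th0 P.s ≤ 1 / 1000 := by
      have : P.s ^ 2 * th0 P.s = 1 / 100 := hsth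
      nlinarith
    have hE0 := P.E_nonneg k (j + 1)
    have h2 : P.E k (j + 1) < 4 * P.s ^ 2 := by nlinarith
    have h3 : 800 * P.s ^ 2 * P.E k (j + 1) ≤ 8 * th0 P.s := by
      have : P.s ^ 2 * P.E k (j + 1) ≤ P.s ^ 2 * th0 P.s ^ 2 :=
        mul_le_mul_of_nonneg_left h1 (by positivity)
      have h4 : P.s ^ 2 * th0 P.s ^ 2 = 1 / 100 * th0 P.s := by
        rw [pow_two (th0 P.s), ← mul_assoc, hsth]
      linarith
    have h4 : Real.sqrt (P.E k (j + 1)) ≤ th0 P.s := by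
      rw [Real.sqrt_le_left hth.le]; exact h1
    refine ⟨h1, h2, by linarith, h4, ?_⟩
    have h5 := cls k h2 (by omega)
    have h6 : P.s * Real.sqrt (P.E k (j + 1)) ≤ 1 / 100 := by
      have h7 : P.s * Real.sqrt (P.E k (j + 1)) ≤ P.s * th0 P.s :=
        mul_le_mul_of_nonneg_left h4 hs.le
      have h8 : P.s * th0 P.s ≤ P.s ^ 2 * th0 P.s := by nlinarith
      linarith
    have h7 : P.E k (j + 1) ≤ 1 / 1000 := by nlinarith
    nlinarith
  -- late phase quantities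
  have hlate : ∀ k, P.j₀ k ≤ j →
      ∑ i ∈ g', lsq v (P.θ k j) k i ≤ 10 * P.s ^ 2 * P.θ k j ^ 2 ∧
      |∑ i ∈ g, z i * llin v (P.θ k j) k i| ≤ 4 * P.s ^ 2 * P.θ k j := by
    intro k hk
    have hθ := P.θ_pos k j
    have h1 := N.wlen k hk
    have h2 : Real.sqrt (∑ i ∈ g, lsq v (P.θ k j) k i) ≤ 4 * P.s * P.θ k j := by
      rw [Real.sqrt_le_left (by positivity)]; exact h1
    constructor
    · have h3 := Z.lsq k
      have h4 : Real.sqrt (∑ i ∈ g, lsq v (P.θ k j) k i ^ 2) ≤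
          P.θ k j * Real.sqrt (∑ i ∈ g, lsq v (P.θ k j) k i) := by
        have : ∑ i ∈ g, lsq v (P.θ k j) k i ^ 2 ≤ P.θ k j ^ 2 * ∑ i ∈ g, lsq v (P.θ k j) k i := by
          rw [Finset.mul_sum]
          exact Finset.sum_le_sum fun i _ => lsq_sq_le hθ.le k i
        calc Real.sqrt (∑ i ∈ g, lsq v (P.θ k j) k i ^ 2)
            ≤ Real.sqrt (P.θ k j ^ 2 * ∑ i ∈ g, lsq v (P.θ k j) k i) := Real.sqrt_le_sqrt this
          _ = _ := by rw [Real.sqrt_mul (by positivity), Real.sqrt_sq hθ.le]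
      have h5 : |∑ i ∈ g, z i * lsq v (P.θ k j) k i| ≤ P.s * (P.θ k j * (4 * P.s * P.θ k j)) :=
        h3.trans (mul_le_mul_of_nonneg_left (h4.trans (mul_le_mul_of_nonneg_left h2 hθ.le)) hs.le)
      have h6 := hup (lsq v (P.θ k j) k)
      nlinarith
    · have h3 := Z.llin k
      simp only [llin_sq] at h3
      calc _ ≤ _ := h3
        _ ≤ P.s * (4 * P.s * P.θ k j) := mul_le_mul_of_nonneg_left h2 hs.le
        _ = _ := by ring
  refine ⟨hsum, cgram, cM0, ?_, cmass, clen, cls, cstrong, cact, ?_, ?_, ?_⟩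
  · intro k
    unfold newF
    split_ifs
    · exact N.F0 k
    · exact le_min (sq_nonneg _) (sq_nonneg _)
  · -- wlen
    intro k hk
    rcases Nat.lt_or_ge j (P.j₀ k) with hlt | hge
    · have hk1 : P.j₀ k = j + 1 := by omega
      obtain ⟨-, -, -, h4, -⟩ := hfreeze k hk1
      rw [P.θ_eq (by omega)]
      refine (clen k (by omega)).trans ?_
      apply pow_le_pow_left₀ (by positivity)
      nlinarith
    · obtain ⟨h1, -⟩ := hlate k hge
      have h2 : ∑ i ∈ g', lsq v (P.θ k (j + 1)) k i ≤ ∑ i ∈ g', lsq v (P.θ k j) k i := by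
        apply Finset.sum_le_sum
        intro i _
        apply lsq_mono
        rw [P.θ_succ hge]
        have := P.θ_pos k j
        linarith
      refine h2.trans (h1.trans ?_)
      rw [P.θ_succ hge]
      have : 0 ≤ P.s ^ 2 * P.θ k j ^ 2 := by positivity
      nlinarith
  · -- wsum
    intro k hk
    rcases Nat.lt_or_ge j (P.j₀ k) with hlt | hge
    · have hk1 : P.j₀ k = j + 1 := by omega
      obtain ⟨-, -, -, -, h5⟩ := hfreeze k hk1
      rw [P.θ_eq (by omega), hk1, Nat.sub_self, pow_zero]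
      linarith
    · obtain ⟨h1, h2⟩ := hlate k hge
      have hθ := P.θ_pos k j
      have hθ' := P.θ_pos k (j + 1)
      have h3 : |∑ i ∈ g', llin v (P.θ k (j + 1)) k i - ∑ i ∈ g', llin v (P.θ k j) k i| ≤
          (∑ i ∈ g', lsq v (P.θ k j) k i) / P.θ k (j + 1) := by
        rw [← Finset.sum_sub_distrib, Finset.sum_div]
        refine (Finset.abs_sum_le_sum_abs _ _).trans (Finset.sum_le_sum fun i _ => ?_)
        apply llin_shift _ hθ'
        rw [P.θ_succ hge]; linarith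
      have h4 : (∑ i ∈ g', lsq v (P.θ k j) k i) / P.θ k (j + 1) ≤ 25 / 2 * (P.s ^ 2 * P.θ k j) := by
        rw [div_le_iff₀ hθ', P.θ_succ hge]
        nlinarith
      have h5 := habs (llin v (P.θ k j) k)
      have h6 := N.wsum k hge
      have h7 := P.s2_θ k j
      have h8 : |∑ i ∈ g', llin v (P.θ k (j + 1)) k i| ≤ |∑ i ∈ g', llin v (P.θ k j) k i| +
          |∑ i ∈ g', llin v (P.θ k (j + 1)) k i - ∑ i ∈ g', llin v (P.θ k j) k i| := by
        have := abs_sub_abs_le_abs_sub (∑ i ∈ g', llin v (P.θ k (j + 1)) k i)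
          (∑ i ∈ g', llin v (P.θ k j) k i)
        linarith
      have h9 : (0:ℝ) < (4 / 5) ^ (j - P.j₀ k) := by positivity
      rw [Nat.succ_sub hge, pow_succ]
      nlinarith
  · -- wpos
    intro k hk
    rcases Nat.lt_or_ge j (P.j₀ k) with hlt | hge
    · have hk1 : P.j₀ k = j + 1 := by omega
      obtain ⟨-, hE, h3, -, h5⟩ := hfreeze k hk1
      have hm := cmass k hE (by omega)
      rw [P.θ_eq (by omega), hk1, Nat.sub_self, pow_zero]
      have h6 : |∑ i ∈ g', v i k - ∑ i ∈ g', llin v (th0 P.s) k i| ≤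
          ∑ i ∈ g', hvy v (th0 P.s) k i := by
        rw [← Finset.sum_sub_distrib]
        refine (Finset.abs_sum_le_sum_abs _ _).trans ?_
        exact Finset.sum_le_sum fun i _ => abs_sub_llin v _ k i
      have h7 : |q' k - p' k| ≤ |∑ i ∈ g', llin v (th0 P.s) k i| +
          ∑ i ∈ g', hvy v (th0 P.s) k i := by
        rw [hsum k]
        have := abs_sub_abs_le_abs_sub (∑ i ∈ g', v i k) (∑ i ∈ g', llin v (th0 P.s) k i)
        linarith
      have h8 : |p' k| ≤ |q' k| + |q' k - p' k| := by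
        have := abs_sub_abs_le_abs_sub (p' k) (q' k)
        rw [abs_sub_comm] at this
        linarith
      have h9 := (cM0 k).1
      have hF : Real.sqrt (newF P j p' q' F k) = min |p' k| |q' k| := by
        unfold newF
        rw [if_neg (by omega)]
        rcases le_total |p' k| |q' k| with h | h
        · rw [min_eq_left h, min_eq_left (sq_le_sq.mpr h), Real.sqrt_sq_eq_abs]
        · rw [min_eq_right h, min_eq_right (sq_le_sq.mpr h), Real.sqrt_sq_eq_abs]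
      rw [hF]
      rcases le_total |p' k| |q' k| with h | h
      · rw [min_eq_left h]
        have h10 : 0 ≤ newM P j g z M k := h9
        linarith
      · rw [min_eq_right h]
        linarith
    · obtain ⟨h1, h2⟩ := hlate k hge
      have hθ := P.θ_pos k j
      have hθ' := P.θ_pos k (j + 1)
      have h3 : ∑ i ∈ g', hvy v (P.θ k (j + 1)) k i ≤ ∑ i ∈ g', hvy v (P.θ k j) k i +
          (∑ i ∈ g', lsq v (P.θ k j) k i) / P.θ k (j + 1) := by
        rw [Finset.sum_div, ← Finset.sum_add_distrib]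
        refine Finset.sum_le_sum fun i _ => ?_
        apply hvy_anti _ hθ'
        rw [P.θ_succ hge]; linarith
      have h4 : (∑ i ∈ g', lsq v (P.θ k j) k i) / P.θ k (j + 1) ≤ 25 / 2 * (P.s ^ 2 * P.θ k j) := by
        rw [div_le_iff₀ hθ', P.θ_succ hge]
        nlinarith
      have h5 := hwpos k hge
      have h6 := N.wsum k hge
      have h6' := N.wpos k hge
      have h7 := P.s2_θ k j
      have h9 : (0:ℝ) < (4 / 5) ^ (j - P.j₀ k) := by positivity
      have hM : newM P j g z M k = M k := by unfold newM; rw [if_pos hge]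
      have hF : newF P j p' q' F k = F k := by unfold newF; rw [if_pos hge]
      rw [hM, hF, Nat.succ_sub hge, pow_succ]
      nlinarith

end Vale.Agent.P262
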