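import Vale.Agent.P262.Sign

/-!
# The choice of signs at a node
-/

namespace Vale.Agent.P262

open Finset

variable {ι K : Type*} [Fintype ι] [Fintype K] [DecidableEq K]

/-- Position of the midpoint of a node split by the signs `z`. -/
noncomputable def midp (v : ι → K → ℝ) (g : Finset ι) (p q : K → ℝ) (z : ι → ℝ) (k : K) : ℝ :=
  (p k + q k) / 2 + (∑ i ∈ g, z i * v i k) / 2

/-- Double-logarithmic constant for second moments. -/
noncomputable def Mc (d s : ℝ) : ℝ := Ac d s ^ 2 + 4 * Ac d s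

lemma c8_sq : (8 * Real.sqrt 3) ^ 2 = 192 := by
  rw [mul_pow, Real.sq_sqrt (by norm_num)]; norm_num

/-- Contribution of the fractional point to coordinate `k`. -/
noncomputable def ek {v : ι → K → ℝ} (P : Par v) (j : ℕ) (g : Finset ι) (p q : K → ℝ) (k : K) :
    ℝ := ∑ i ∈ g, frac P j p q i * v i k

/-- Expected midpoint. -/
noncomputable def uk {v : ι → K → ℝ} (P : Par v) (j : ℕ) (g : Finset ι) (p q : K → ℝ) (k : K) :
    ℝ := (p k + q k) / 2 + ek P j g p q k / 2

/-- Rank of a strong coordinate. -/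
noncomputable def rk {v : ι → K → ℝ} (P : Par v) (j : ℕ) (k : K) : ℝ :=
  (((strS P j).filter (fun l => P.j₁ l ≤ P.j₁ k)).card : ℝ)

/-- Rounding error of a payload. -/
noncomputable def dev {v : ι → K → ℝ} (P : Par v) (j : ℕ) (g : Finset ι) (p q : K → ℝ)
    (z : ι → ℝ) (f : ι → ℝ) : ℝ := ∑ i ∈ g, (z i - frac P j p q i) * f i

/-- First group of the potential. -/
noncomputable def G1 {v : ι → K → ℝ} (P : Par v) (j : ℕ) (g : Finset ι) (p q : K → ℝ)
    (z : ι → ℝ) : ℝ :=
  ∑ k ∈ actS P j, 1 / ((actS P j).card : ℝ) *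
    (Real.exp (|dev P j g p q z (fun i => v i k)| / (8 * Real.sqrt 3)) +
      uk P j g p q k * dev P j g p q z (fun i => v i k) / 96)

/-- Second group of the potential. -/
noncomputable def G2 {v : ι → K → ℝ} (P : Par v) (j : ℕ) (g : Finset ι) (p q : K → ℝ)
    (z : ι → ℝ) : ℝ :=
  ∑ k ∈ strS P j, 1 / (rk P j k * Hd (Fintype.card K)) *
    Real.exp (|dev P j g p q z (fun i => v i k)| / (8 * Real.sqrt 3))

/-- Third group of the potential. -/
noncomputable def G3 {v : ι → K → ℝ} (P : Par v) (j : ℕ) (g : Finset ι) (p q : K → ℝ)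
    (z : ι → ℝ) : ℝ :=
  ∑ k ∈ actS P j, rho P j k / (∑ k ∈ actS P j, rho P j k) *
    Real.exp (|dev P j g p q z (hvy v (th0 P.s) k)| / (8 * Real.sqrt 3))

lemma rho_pos {v : ι → K → ℝ} (P : Par v) (j : ℕ) (k : K) : 0 < rho P j k := by
  unfold rho; positivity

lemma one_le_rk {v : ι → K → ℝ} (P : Par v) {j : ℕ} {k : K} (hk : k ∈ strS P j) :
    1 ≤ rk P j k := by
  have : k ∈ (strS P j).filter (fun l => P.j₁ l ≤ P.j₁ k) := by
    rw [Finset.mem_filter]; exact ⟨hk, le_refl _⟩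
  have h1 : 0 < ((strS P j).filter (fun l => P.j₁ l ≤ P.j₁ k)).card :=
    Finset.card_pos.mpr ⟨k, this⟩
  unfold rk
  exact_mod_cast h1

omit [DecidableEq K] in
lemma one_le_Hd [Nonempty K] : 1 ≤ Hd (Fintype.card K : ℝ) := by
  unfold Hd
  have := Real.log_nonneg (one_le_card (K := K))
  linarith

lemma ten_le_Bd (s : ℝ) : 10 ≤ Bd s := by
  unfold Bd; nlinarith [sq_nonneg (4 * s ^ 2 + 1)]

/-- The weights of the potential. -/
noncomputable def wts {v : ι → K → ℝ} (P : Par v) (j : ℕ) : K ⊕ K → ℝ :=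
  Sum.elim (fun k => (if k ∈ actS P j then 1 / ((actS P j).card : ℝ) else 0) +
      (if k ∈ strS P j then 1 / (rk P j k * Hd (Fintype.card K)) else 0))
    (fun k => if k ∈ actS P j then rho P j k / (∑ k ∈ actS P j, rho P j k) else 0)

/-- The linear functional in the potential. -/
noncomputable def lin {v : ι → K → ℝ} (P : Par v) (j : ℕ) (g : Finset ι) (p q : K → ℝ) :
    K ⊕ K → ℝ :=
  Sum.elim (fun k => if k ∈ actS P j then uk P j g p q k / (96 * ((actS P j).card : ℝ)) else 0)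
    (fun _ => 0)

lemma wts_nonneg [Nonempty K] {v : ι → K → ℝ} (P : Par v) (j : ℕ) (κ : K ⊕ K) :
    0 ≤ wts P j κ := by
  have hH1 := one_le_Hd (K := K)
  unfold wts
  rcases κ with k | k
  · simp only [Sum.elim_inl]
    have h1 : 0 ≤ (if k ∈ actS P j then 1 / ((actS P j).card : ℝ) else 0) := by
      split_ifs <;> positivity
    have h2 : 0 ≤ (if k ∈ strS P j then 1 / (rk P j k * Hd (Fintype.card K)) else 0) := by
      split_ifs with h
      · have := one_le_rk P h
        positivity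
      · exact le_refl _
    linarith
  · simp only [Sum.elim_inr]
    split_ifs
    · have h1 := (rho_pos P j k).le
      have h2 : 0 ≤ ∑ k ∈ actS P j, rho P j k := Finset.sum_nonneg fun k _ => (rho_pos P j k).le
      positivity
    · exact le_refl _

lemma wts_sum [Nonempty K] {v : ι → K → ℝ} (P : Par v) (j : ℕ) : ∑ κ, wts P j κ ≤ 3 := by
  have hd := one_le_card (K := K)
  have hlogd : 0 ≤ Real.log (Fintype.card K : ℝ) := Real.log_nonneg hd
  have hH1 := one_le_Hd (K := K)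
  have hw1s : ∑ k, (if k ∈ actS P j then 1 / ((actS P j).card : ℝ) else 0) ≤ 1 := by
    rw [Finset.sum_ite_mem, Finset.univ_inter, Finset.sum_const, nsmul_eq_mul]
    by_cases h0 : ((actS P j).card : ℝ) = 0
    · rw [h0]; norm_num
    · rw [mul_one_div_cancel h0]
  have hw2s : ∑ k, (if k ∈ strS P j then 1 / (rk P j k * Hd (Fintype.card K)) else 0) ≤ 1 := by
    rw [Finset.sum_ite_mem, Finset.univ_inter]
    have h1 : ∑ k ∈ strS P j, 1 / (rk P j k * Hd (Fintype.card K)) =
        (∑ k ∈ strS P j, 1 / rk P j k) / Hd (Fintype.card K) := by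
      rw [Finset.sum_div]; apply Finset.sum_congr rfl; intro k _; rw [div_div]
    rw [h1, div_le_one (by linarith)]
    have h2 := rank_sum (P.j₁) (strS P j).card (strS P j) rfl
    refine h2.trans ((harmonic_le_one_add_log _).trans ?_)
    unfold Hd
    have h3 : Real.log ((strS P j).card : ℝ) ≤ Real.log (Fintype.card K : ℝ) := by
      by_cases h0 : (strS P j).card = 0
      · rw [h0]; simp only [Nat.cast_zero, Real.log_zero]; exact hlogd
      · apply Real.log_le_log
        · exact_mod_cast Nat.pos_of_ne_zero h0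
        · exact_mod_cast Finset.card_le_univ _
    linarith
  have hw3s : ∑ k, (if k ∈ actS P j then rho P j k / (∑ k ∈ actS P j, rho P j k) else 0) ≤ 1 := by
    rw [Finset.sum_ite_mem, Finset.univ_inter, ← Finset.sum_div]
    exact div_self_le_one _
  unfold wts
  rw [Fintype.sum_sum_type]
  simp only [Sum.elim_inl, Sum.elim_inr, Finset.sum_add_distrib]
  linarith

/-- Payload part of the forms. -/
noncomputable def fα {v : ι → K → ℝ} (P : Par v) (j : ℕ) :
    ((K ⊕ K) ⊕ ((K × K) ⊕ (K ⊕ K))) → ι → ℝ :=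
  Sum.elim (fun _ _ => 0)
    (Sum.elim (fun kl i => v i kl.1 * v i kl.2)
      (Sum.elim (fun k i => lsq v (P.θ k j) k i) (fun k i => llin v (P.θ k j) k i)))

/-- Coordinate part of the forms. -/
noncomputable def fβ : ((K ⊕ K) ⊕ ((K × K) ⊕ (K ⊕ K))) → (K ⊕ K) → ℝ :=
  Sum.elim (fun κ κ' => if κ' = κ then 1 else 0) (fun _ _ => 0)

/-- The augmented vectors. -/
noncomputable def fa (v : ι → K → ℝ) (θ : ℝ) (i : ι) : K ⊕ K → ℝ :=
  Sum.elim (v i) (fun k => hvy v θ k i)

lemma fa_norm {v : ι → K → ℝ} (P : Par v) (i : ι) : ∑ k, fa v (th0 P.s) i k ^ 2 ≤ 2 := by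
  rw [Fintype.sum_sum_type]
  simp only [fa, Sum.elim_inl, Sum.elim_inr]
  have h1 := P.hv i
  have h2 : ∑ k, hvy v (th0 P.s) k i ^ 2 ≤ ∑ k, v i k ^ 2 := by
    apply Finset.sum_le_sum
    intro k _
    rw [← sq_abs (v i k)]
    exact pow_le_pow_left₀ (hvy_nonneg _ _ _ _) (hvy_le_abs _ _ _ _) 2
  linarith

lemma pot_split {v : ι → K → ℝ} (P : Par v) (j : ℕ) (g : Finset ι) (p q : K → ℝ) (z : ι → ℝ) :
    ∑ κ, wts P j κ * Real.exp (|∑ i ∈ g, (z i - frac P j p q i) * fa v (th0 P.s) i κ| /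
      (8 * Real.sqrt 3)) +
    ∑ κ, lin P j g p q κ * (∑ i ∈ g, (z i - frac P j p q i) * fa v (th0 P.s) i κ) =
    G1 P j g p q z + G2 P j g p q z + G3 P j g p q z := by
  rw [Fintype.sum_sum_type, Fintype.sum_sum_type]
  simp only [wts, lin, fa, Sum.elim_inl, Sum.elim_inr, zero_mul, Finset.sum_const_zero, add_zero]
  have e2 : G1 P j g p q z = ∑ k, ((if k ∈ actS P j then 1 / ((actS P j).card : ℝ) else 0) *
      Real.exp (|dev P j g p q z (fun i => v i k)| / (8 * Real.sqrt 3)) +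
      (if k ∈ actS P j then uk P j g p q k / (96 * ((actS P j).card : ℝ)) else 0) *
        dev P j g p q z (fun i => v i k)) := by
    unfold G1
    simp only [ite_mul, zero_mul]
    rw [Finset.sum_add_distrib, Finset.sum_ite_mem, Finset.sum_ite_mem, Finset.univ_inter,
      ← Finset.sum_add_distrib]
    apply Finset.sum_congr rfl
    intro k _
    rw [mul_add]; congr 1
    by_cases h0 : ((actS P j).card : ℝ) = 0
    · rw [h0]; simp
    · field_simp
  have e3 : G2 P j g p q z = ∑ k, (if k ∈ strS P j then 1 / (rk P j k * Hd (Fintype.card K)) else 0) *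
      Real.exp (|dev P j g p q z (fun i => v i k)| / (8 * Real.sqrt 3)) := by
    unfold G2
    simp only [ite_mul, zero_mul]
    rw [Finset.sum_ite_mem, Finset.univ_inter]
  have e4 : G3 P j g p q z =
      ∑ k, (if k ∈ actS P j then rho P j k / (∑ k ∈ actS P j, rho P j k) else 0) *
      Real.exp (|dev P j g p q z (hvy v (th0 P.s) k)| / (8 * Real.sqrt 3)) := by
    unfold G3
    simp only [ite_mul, zero_mul]
    rw [Finset.sum_ite_mem, Finset.univ_inter]
  rw [e2, e3, e4]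
  simp only [add_mul, Finset.sum_add_distrib, dev]
  ring

section

variable [Nonempty K] {v : ι → K → ℝ} {P : Par v} {j : ℕ} {g : Finset ι} {p q M F : K → ℝ}

omit [Nonempty K] in
lemma pq_bound (N : Node P j g p q M F) : ∀ k ∈ actS P j, |(p k + q k) / 2| ≤ 4 * P.s ^ 2 := by
  have hs := P.s_pos
  intro k hk
  obtain ⟨-, h1, h2⟩ := Finset.mem_filter.mp hk
  have h3 := N.act k h1 h2.le
  have h4 : (j:ℝ) + 1 ≤ P.j₁ k + P.n₀ := by
    have : j + 1 ≤ P.j₁ k + P.n₀ := h2
    exact_mod_cast this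
  have h5 := P.hn
  have h6 : P.s * (1 + ((j : ℝ) - P.j₁ k)) ≤ P.s * (4 * P.s) :=
    mul_le_mul_of_nonneg_left (by linarith) hs.le
  rw [abs_div, abs_two]
  have := abs_add_le (p k) (q k)
  nlinarith [h3.1, h3.2]

omit [Nonempty K] in
lemma inv_le_twentieth : 1 / (20 * P.s ^ 3) ≤ 1 / 20 := by
  have hs45 := P.hs
  have hs3 : (1:ℝ) ≤ P.s ^ 3 := one_le_pow₀ (by linarith)
  apply one_div_le_one_div_of_le (by norm_num); linarith

lemma ek_act (N : Node P j g p q M F) : ∀ k, ¬ j < P.j₁ k →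
    |ek P j g p q k| ≤ 1 / (20 * P.s ^ 3) := by
  intro k hk
  have h3 := frac_sum N k
  have h4 : cor P j p q k = 0 := by unfold cor; rw [if_neg hk]
  rwa [h4, zero_mul, sub_zero] at h3

omit [Nonempty K] in
lemma mid_eq (z : ι → ℝ) (k : K) : midp v g p q z k =
    uk P j g p q k + dev P j g p q z (fun i => v i k) / 2 := by
  unfold midp uk ek dev
  have : ∑ i ∈ g, z i * v i k = ∑ i ∈ g, (z i - frac P j p q i) * v i k +
      ∑ i ∈ g, frac P j p q i * v i k := by
    rw [← Finset.sum_add_distrib]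
    apply Finset.sum_congr rfl; intro i _; ring
  rw [this]; ring

lemma mid_strong (N : Node P j g p q M F) (z : ι → ℝ) (k : K) (hk : j < P.j₁ k) :
    ∃ r : ℝ, |r| ≤ 1 / 20 ∧
      midp v g p q z k = r / 2 + dev P j g p q z (fun i => v i k) / 2 := by
  refine ⟨ek P j g p q k - cor P j p q k * P.E k j,
    (frac_sum N k).trans inv_le_twentieth, ?_⟩
  have hs45 := P.hs
  have hd := one_le_card (K := K)
  have h1 := sqrt_E_ge (P := P) hk
  have h0 : (0:ℝ) < 200 * Fintype.card K * P.s ^ 5 := by positivity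
  have hE : 0 < P.E k j := Real.sqrt_pos.mp (lt_of_lt_of_le h0 h1)
  have h2 : cor P j p q k * P.E k j = -(p k + q k) := by
    unfold cor; rw [if_pos hk, div_mul_cancel₀ _ hE.ne']
  rw [mid_eq (P := P) (j := j) z k, h2]
  unfold uk; ring

lemma uk_bound (N : Node P j g p q M F) : ∀ k ∈ actS P j, |uk P j g p q k| ≤ 4 * P.s ^ 2 + 1 := by
  intro k hk
  have h1 := pq_bound N k hk
  obtain ⟨-, h1', h2'⟩ := Finset.mem_filter.mp hk
  have h2 := (ek_act N k (not_lt.mpr h1')).trans inv_le_twentieth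
  unfold uk
  refine (abs_add_le _ _).trans ?_
  have h3 : |ek P j g p q k / 2| ≤ 1 := by rw [abs_div, abs_two]; linarith
  linarith

lemma G1_low (N : Node P j g p q M F) (z : ι → ℝ) : 10 - Bd P.s ≤ G1 P j g p q z := by
  have h1 : ∀ k ∈ actS P j, 1 / ((actS P j).card : ℝ) * (-((4 * P.s ^ 2 + 1) ^ 2 / 96)) ≤
      1 / ((actS P j).card : ℝ) *
        (Real.exp (|dev P j g p q z (fun i => v i k)| / (8 * Real.sqrt 3)) +
      uk P j g p q k * dev P j g p q z (fun i => v i k) / 96) := by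
    intro k hk
    apply mul_le_mul_of_nonneg_left _ (by positivity)
    have h2 := half_sq_le_exp (t := |dev P j g p q z (fun i => v i k)| / (8 * Real.sqrt 3))
      (by positivity)
    have h3 : (|dev P j g p q z (fun i => v i k)| / (8 * Real.sqrt 3)) ^ 2 / 2 =
        dev P j g p q z (fun i => v i k) ^ 2 / 384 := by
      rw [div_pow, c8_sq, sq_abs]; ring
    rw [h3] at h2
    have h4 : uk P j g p q k ^ 2 ≤ (4 * P.s ^ 2 + 1) ^ 2 := by
      rw [← sq_abs (uk P j g p q k)]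
      exact pow_le_pow_left₀ (abs_nonneg _) (uk_bound N k hk) 2
    nlinarith [sq_nonneg (dev P j g p q z (fun i => v i k) + 2 * uk P j g p q k)]
  have h2 := Finset.sum_le_sum h1
  rw [Finset.sum_const, nsmul_eq_mul, ← mul_assoc] at h2
  have h3 : ((actS P j).card : ℝ) * (1 / ((actS P j).card : ℝ)) ≤ 1 := by
    by_cases h0 : ((actS P j).card : ℝ) = 0
    · rw [h0]; norm_num
    · rw [mul_one_div_cancel h0]
  have h4 : 0 ≤ (4 * P.s ^ 2 + 1) ^ 2 / 96 := by positivity
  have h5 : Bd P.s = 10 + (4 * P.s ^ 2 + 1) ^ 2 / 96 := rfl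
  unfold G1
  nlinarith

lemma G2_nonneg (z : ι → ℝ) : 0 ≤ G2 P j g p q z := by
  have hH1 := one_le_Hd (K := K)
  exact Finset.sum_nonneg fun k hk => by
    have := one_le_rk P hk
    positivity

omit [Nonempty K] in
lemma G3_nonneg (z : ι → ℝ) : 0 ≤ G3 P j g p q z := by
  have h2 : 0 ≤ ∑ k ∈ actS P j, rho P j k := Finset.sum_nonneg fun k _ => (rho_pos P j k).le
  exact Finset.sum_nonneg fun k hk => by
    have := (rho_pos P j k).le
    positivity

/-- Signs with a controlled potential. -/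
theorem exists_z [DecidableEq ι] (N : Node P j g p q M F) :
    ∃ z : ι → ℝ, (∀ i ∈ g, z i = 1 ∨ z i = -1) ∧
      (∀ κ, |∑ i ∈ g, (z i - frac P j p q i) * (fα P j κ i +
          ∑ k, (fβ κ k : ℝ) * fa v (th0 P.s) i k)| ≤
        (P.s - 1) * Real.sqrt (∑ i ∈ g, fα P j κ i ^ 2 + ∑ k, (fβ κ k : ℝ) ^ 2)) ∧
      G1 P j g p q z ≤ 10 ∧ G2 P j g p q z ≤ Bd P.s ∧ G3 P j g p q z ≤ Bd P.s := by
  have hd := one_le_card (K := K)
  obtain ⟨z, hz1, hz2⟩ := rounding_forms (fa v (th0 P.s)) (fa_norm P) g (frac P j p q)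
    (fun i _ => frac_le_one N i) (fα P j) fβ (wts P j) (lin P j g p q) (wts_nonneg P j)
    (wts_sum P j)
  have hm : (Fintype.card ((K ⊕ K) ⊕ ((K × K) ⊕ (K ⊕ K))) : ℝ) =
      (Fintype.card K : ℝ) ^ 2 + 4 * Fintype.card K := by
    simp only [Fintype.card_sum, Fintype.card_prod]
    push_cast; ring
  have hm0 : 0 < (Fintype.card K : ℝ) ^ 2 + 4 * Fintype.card K := by positivity
  have hlow := G1_low N z
  have hlow2 : 0 ≤ G2 P j g p q z := G2_nonneg z
  have hlow3 : 0 ≤ G3 P j g p q z := G3_nonneg z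
  have hc8p : 0 < 8 * Real.sqrt 3 := by positivity
  have hB := ten_le_Bd P.s
  have hsum : ∀ κ, ∃ t : ℝ, |∑ i ∈ g, (z i - frac P j p q i) * (fα P j κ i +
          ∑ k, (fβ κ k : ℝ) * fa v (th0 P.s) i k)| ≤
      8 * Real.sqrt 3 * t * Real.sqrt (∑ i ∈ g, fα P j κ i ^ 2 + ∑ k, (fβ κ k : ℝ) ^ 2) ∧
      Real.exp t / ((Fintype.card K : ℝ) ^ 2 + 4 * Fintype.card K) +
        (G1 P j g p q z + G2 P j g p q z + G3 P j g p q z) ≤ 10 := by
    intro κ
    obtain ⟨t, h1, h2⟩ := hz2 κ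
    refine ⟨t, h1, ?_⟩
    rw [hm, add_assoc, pot_split] at h2
    exact h2
  have h10 : G1 P j g p q z + G2 P j g p q z + G3 P j g p q z ≤ 10 := by
    obtain ⟨k₀⟩ := (inferInstance : Nonempty K)
    obtain ⟨t, -, h2⟩ := hsum (Sum.inl (Sum.inl k₀))
    have : 0 ≤ Real.exp t / ((Fintype.card K : ℝ) ^ 2 + 4 * Fintype.card K) := by positivity
    linarith
  refine ⟨z, hz1, ?_, by linarith, by linarith, by linarith⟩
  intro κ
  obtain ⟨t, h1, h2⟩ := hsum κ
  have h3 : Real.exp t / ((Fintype.card K : ℝ) ^ 2 + 4 * Fintype.card K) ≤ Bd P.s := by linarith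
  have h4 : Real.exp t ≤ ((Fintype.card K : ℝ) ^ 2 + 4 * Fintype.card K) * Bd P.s := by
    rw [div_le_iff₀ hm0] at h3; linarith
  have h5 : t ≤ Real.log (((Fintype.card K : ℝ) ^ 2 + 4 * Fintype.card K) * Bd P.s) := by
    rw [Real.le_log_iff_exp_le (by positivity)]; exact h4
  have h6 : 8 * Real.sqrt 3 * t ≤ P.s - 1 :=
    (mul_le_mul_of_nonneg_left h5 hc8p.le).trans P.hL
  exact h1.trans (mul_le_mul_of_nonneg_right h6 (Real.sqrt_nonneg _))

end

end Vale.Agent.P262
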