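import Vale.Agent.P262.Tree

/-!
# The root of the tree and the choice of parameters
-/

namespace Vale.Agent.P262

open Finset

variable {ι K : Type*} [Fintype ι] [Fintype K] [DecidableEq K]

lemma root_node [Nonempty K] {v : ι → K → ℝ} (P : Par v) (hsum : ∀ k, ∑ i, v i k = 0) :
    Node P 0 univ (fun _ => 0) (fun _ => 0) (fun _ => 0) (fun _ => 0) := by
  have hs := P.s_pos
  have hs45 := P.hs
  have hth := P.th0_pos
  have hinv : ∀ a : ℝ, a / th0 P.s = 100 * P.s ^ 2 * a := by
    intro a; unfold th0; field_simp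
  have hE0 : ∀ k, P.E k 0 = P.lam k := by intro k; unfold Par.E; simp
  have hlam : ∀ k, ∑ i, v i k ^ 2 = P.lam k := by
    intro k
    have := P.hgram k k
    rw [if_pos rfl] at this
    rw [← this]; apply Finset.sum_congr rfl; intro i _; ring
  have hj0 : ∀ k, ¬ P.j₀ k ≤ 0 := by
    intro k; have := P.hn1; unfold Par.j₀; omega
  have hhvy : ∀ k, ∑ i, hvy v (th0 P.s) k i ≤ 100 * P.s ^ 2 * P.lam k := by
    intro k
    rw [← hlam k, ← hinv, Finset.sum_div]
    exact Finset.sum_le_sum fun i _ => hvy_le_sq_div hth k i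
  refine ⟨?_, ?_, ?_, ?_, ?_, ?_, ?_, ?_, ?_, ?_, ?_, ?_⟩
  · intro k; rw [hsum k]; simp
  · intro k l _
    have h1 := P.hgram k l
    rw [h1, hE0]
    have : (if k = l then P.lam k else 0) - (if k = l then P.lam l else 0) = 0 := by
      split_ifs with h
      · rw [h]; simp
      · simp
    rw [this, abs_zero]; positivity
  · intro k; exact ⟨le_refl _, hs.le⟩
  · intro k; exact le_refl _
  · intro k _ _
    rw [hE0]
    have h1 := hhvy k
    have h2 : 0 ≤ P.s ^ 2 * P.lam k := mul_nonneg (by positivity) (P.lam_nonneg k)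
    nlinarith
  · intro k _
    rw [hE0]
    have h1 : ∑ i, lsq v (th0 P.s) k i ≤ P.lam k := by
      rw [← hlam k]; exact Finset.sum_le_sum fun i _ => lsq_le_sq v _ k i
    have h2 : Real.sqrt (P.lam k) ^ 2 = P.lam k := Real.sq_sqrt (P.lam_nonneg k)
    have h3 := Real.sqrt_nonneg (P.lam k)
    have h4 : 0 ≤ P.s * th0 P.s := by positivity
    nlinarith
  · intro k _ _
    rw [hE0]
    have h1 := hhvy k
    have h2 : |∑ i, v i k - ∑ i, llin v (th0 P.s) k i| ≤ ∑ i, hvy v (th0 P.s) k i := by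
      rw [← Finset.sum_sub_distrib]
      refine (Finset.abs_sum_le_sum_abs _ _).trans ?_
      exact Finset.sum_le_sum fun i _ => abs_sub_llin v _ k i
    rw [hsum k, zero_sub, abs_neg] at h2
    have h3 : 0 ≤ P.s ^ 2 * P.lam k := mul_nonneg (by positivity) (P.lam_nonneg k)
    have h4 : 0 ≤ 5 / 2 * P.s * Real.sqrt (P.lam k) := by positivity
    have h5 := P.lam_nonneg k
    nlinarith
  · intro k _; rw [abs_zero]; constructor <;> linarith
  · intro k h1 _
    have : P.j₁ k = 0 := by omega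
    rw [this, abs_zero]
    simp only [Nat.cast_zero, sub_zero, add_zero, mul_one]
    exact ⟨hs.le, hs.le⟩
  · intro k h; exact absurd h (hj0 k)
  · intro k h; exact absurd h (hj0 k)
  · intro k h; exact absurd h (hj0 k)

lemma root_ledg [Nonempty K] {v : ι → K → ℝ} (P : Par v)
    (hMc : 0 ≤ Mc (Fintype.card K) P.s) :
    Ledg P 0 (fun _ => 0) (fun _ => 0) (fun _ => 0) (fun _ => 0) := by
  have h1 : ∀ m, ∑ k, phi P 0 m (fun _ => (0:ℝ)) (fun _ => 0) k = 0 := by
    intro m
    apply Finset.sum_eq_zero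
    intro k _
    unfold phi
    split_ifs <;> simp
  have h2 : 0 ≤ Cp (Fintype.card K) P.s := by unfold Cp; linarith
  have h3 : ∀ m, 0 ≤ ent P m := fun m => Nat.cast_nonneg _
  have h4 : actSum P 0 = 0 := by unfold actSum; simp
  have h5 : rhoSum P 0 = 0 := by unfold rhoSum; simp
  refine ⟨?_, ?_, ?_⟩
  · intro m _
    rw [h1, h4]
    have := mul_nonneg h2 (h3 m)
    linarith
  · intro m _
    rw [h1, h4]
    have := mul_nonneg h2 (h3 m)
    linarith
  · rw [h5]; simp

lemma geom_half (n : ℕ) : ∑ b ∈ range n, (1 / 2 : ℝ) ^ (n - b) ≤ 1 := by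
  induction n with
  | zero => simp
  | succ n ih =>
    rw [Finset.sum_range_succ]
    have h1 : ∑ b ∈ range n, (1 / 2 : ℝ) ^ (n + 1 - b) =
        1 / 2 * ∑ b ∈ range n, (1 / 2 : ℝ) ^ (n - b) := by
      rw [Finset.mul_sum]
      apply Finset.sum_congr rfl
      intro b hb
      have : n + 1 - b = (n - b) + 1 := by
        have := Finset.mem_range.mp hb; omega
      rw [this, pow_succ]; ring
    rw [h1, Nat.add_sub_cancel_left, pow_one]
    linarith

lemma actSum_le {v : ι → K → ℝ} (P : Par v) (J : ℕ) :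
    actSum P J ≤ Fintype.card K * P.n₀ := by
  have h1 : actSum P J = ∑ k : K, ∑ b ∈ range J,
      (if P.j₁ k ≤ b ∧ b < P.j₀ k then (1:ℝ) else 0) := by
    unfold actSum
    rw [Finset.sum_comm]
    apply Finset.sum_congr rfl
    intro b _
    unfold actS
    rw [Finset.card_filter]
    push_cast
    rfl
  rw [h1]
  have h2 : ∀ k ∈ (univ : Finset K), ∑ b ∈ range J,
      (if P.j₁ k ≤ b ∧ b < P.j₀ k then (1:ℝ) else 0) ≤ P.n₀ := by
    intro k _
    rw [← Finset.sum_filter, Finset.sum_const, nsmul_eq_mul, mul_one]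
    have h3 : (range J).filter (fun b => P.j₁ k ≤ b ∧ b < P.j₀ k) ⊆ Finset.Ico (P.j₁ k) (P.j₀ k) := by
      intro b hb
      rw [Finset.mem_filter] at hb
      rw [Finset.mem_Ico]; exact hb.2
    have h4 := Finset.card_le_card h3
    rw [Nat.card_Ico] at h4
    have h5 : P.j₀ k - P.j₁ k = P.n₀ := by unfold Par.j₀; omega
    rw [h5] at h4
    exact_mod_cast h4
  refine (Finset.sum_le_sum h2).trans ?_
  rw [Finset.sum_const, nsmul_eq_mul, Finset.card_univ]

lemma rhoSum_le {v : ι → K → ℝ} (P : Par v) (J : ℕ) :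
    rhoSum P J ≤ Fintype.card K := by
  have h1 : rhoSum P J = ∑ k : K, ∑ b ∈ range J,
      (if P.j₁ k ≤ b ∧ b < P.j₀ k then rho P b k else 0) := by
    unfold rhoSum
    rw [Finset.sum_comm]
    apply Finset.sum_congr rfl
    intro b _
    unfold actS
    rw [Finset.sum_filter]
  rw [h1]
  have h2 : ∀ k ∈ (univ : Finset K), ∑ b ∈ range J,
      (if P.j₁ k ≤ b ∧ b < P.j₀ k then rho P b k else 0) ≤ 1 := by
    intro k _
    rw [← Finset.sum_filter]
    refine le_trans ?_ (geom_half (P.j₀ k))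
    have h3 : (range J).filter (fun b => P.j₁ k ≤ b ∧ b < P.j₀ k) ⊆ range (P.j₀ k) := by
      intro b hb
      rw [Finset.mem_filter] at hb
      rw [Finset.mem_range]; exact hb.2.2
    exact Finset.sum_le_sum_of_subset_of_nonneg h3 fun b _ _ => (rho_pos P b k).le
  refine (Finset.sum_le_sum h2).trans ?_
  rw [Finset.sum_const, nsmul_eq_mul, Finset.card_univ, mul_one]

/-! ### Numerical choice of the parameters -/

lemma log_two_ge : (0.693 : ℝ) ≤ Real.log 2 := by
  have := Real.log_two_gt_d9; linarith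

lemma log_le_lin {a x : ℝ} (ha : 0 < a) (hx : 0 < x) :
    Real.log x ≤ x / a - 1 + Real.log a := by
  have h1 := Real.log_le_sub_one_of_pos (div_pos hx ha)
  rw [Real.log_div hx.ne' ha.ne'] at h1
  linarith

lemma log_128 : Real.log 128 ≤ 4.853 := by
  have h1 : (128:ℝ) = 2 ^ 7 := by norm_num
  rw [h1, Real.log_pow]
  have := Real.log_two_lt_d9
  push_cast
  linarith

lemma log_4 : Real.log 4 ≤ 1.3863 := by
  have h1 : (4:ℝ) = 2 ^ 2 := by norm_num
  rw [h1, Real.log_pow]
  have := Real.log_two_lt_d9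
  push_cast
  linarith

section num

variable {d : ℝ}

/-- The main parameter. -/
noncomputable def sd (d : ℝ) : ℝ := 1000 * Real.log (d + 1)

lemma ell_ge (hd : 1 ≤ d) : 0.693 ≤ Real.log (d + 1) := by
  refine log_two_ge.trans ?_
  apply Real.log_le_log (by norm_num); linarith

lemma sd_ge (hd : 1 ≤ d) : 693 ≤ sd d := by
  unfold sd; have := ell_ge hd; linarith

lemma Bd_le {s : ℝ} (hs : 45 ≤ s) : Bd s ≤ s ^ 4 := by
  unfold Bd
  have h1 : (45:ℝ) ^ 2 ≤ s ^ 2 := pow_le_pow_left₀ (by norm_num) hs 2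
  nlinarith [sq_nonneg (s ^ 2 - 45 ^ 2)]

lemma num_hL (hd : 1 ≤ d) :
    8 * Real.sqrt 3 * Real.log ((d ^ 2 + 4 * d) * Bd (sd d)) ≤ sd d - 1 := by
  have hs := sd_ge hd
  have hell := ell_ge hd
  set s := sd d with hsd
  have hB := ten_le_Bd s
  have h1 : Real.sqrt 3 ≤ 7 / 4 := by
    rw [Real.sqrt_le_left (by norm_num)]; norm_num
  have h2 : (d ^ 2 + 4 * d) * Bd s ≤ (4 * (d + 1) ^ 2) * s ^ 4 := by
    apply mul_le_mul _ (Bd_le (by linarith)) (by linarith) (by positivity)
    nlinarith
  have h3 : Real.log ((d ^ 2 + 4 * d) * Bd s) ≤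
      Real.log 4 + 2 * Real.log (d + 1) + 4 * Real.log s := by
    refine (Real.log_le_log (by positivity) h2).trans (le_of_eq ?_)
    rw [Real.log_mul (by positivity) (by positivity), Real.log_mul (by norm_num) (by positivity),
      Real.log_pow, Real.log_pow]
    push_cast; ring
  have h4 := log_le_lin (a := 128) (x := s) (by norm_num) (by linarith)
  have h5 := log_128
  have h6 := log_4
  have h7 : 0 ≤ Real.log ((d ^ 2 + 4 * d) * Bd s) := by
    apply Real.log_nonneg
    nlinarith
  have h8 : 8 * Real.sqrt 3 * Real.log ((d ^ 2 + 4 * d) * Bd s) ≤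
      14 * Real.log ((d ^ 2 + 4 * d) * Bd s) := by
    apply mul_le_mul_of_nonneg_right _ h7
    linarith
  have h9 : s = 1000 * Real.log (d + 1) := rfl
  refine h8.trans ?_
  nlinarith

/-- The number of active depths. -/
noncomputable def nd (d : ℝ) : ℕ := ⌈3 * Real.log (20000 * d * sd d ^ 7)⌉₊

lemma nd_arg (hd : 1 ≤ d) : 2 ≤ 20000 * d * sd d ^ 7 := by
  have hs := sd_ge hd
  have : (1:ℝ) ≤ sd d ^ 7 := one_le_pow₀ (by linarith)
  nlinarith

lemma num_hn1 (hd : 1 ≤ d) : 1 ≤ nd d := by
  unfold nd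
  rw [Nat.one_le_ceil_iff]
  have := Real.log_pos (by have := nd_arg hd; linarith : 1 < 20000 * d * sd d ^ 7)
  linarith

lemma num_hn (hd : 1 ≤ d) : (nd d : ℝ) + 1 ≤ 4 * sd d := by
  have hs := sd_ge hd
  have hell := ell_ge hd
  have h0 : 0 ≤ Real.log (20000 * d * sd d ^ 7) :=
    Real.log_nonneg (by have := nd_arg hd; linarith)
  have h1 := (Nat.ceil_lt_add_one (a := 3 * Real.log (20000 * d * sd d ^ 7)) (by linarith)).le
  have h2 : Real.log (20000 * d * sd d ^ 7) = Real.log 20000 + Real.log d +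
      7 * Real.log (sd d) := by
    rw [Real.log_mul (by positivity) (by positivity), Real.log_mul (by norm_num) (by positivity),
      Real.log_pow]
    push_cast; ring
  have h3 : Real.log 20000 ≤ 10.5 := by
    have : Real.log 20000 ≤ Real.log (2 ^ 15) := Real.log_le_log (by norm_num) (by norm_num)
    rw [Real.log_pow] at this
    have h4 := Real.log_two_lt_d9
    push_cast at this
    linarith
  have h4 : Real.log d ≤ Real.log (d + 1) := Real.log_le_log (by linarith) (by linarith)
  have h5 := log_le_lin (a := 128) (x := sd d) (by norm_num) (by linarith)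
  have h6 := log_128
  have h7 : sd d = 1000 * Real.log (d + 1) := rfl
  have h8 : (nd d : ℝ) ≤ 3 * Real.log (20000 * d * sd d ^ 7) + 1 := h1
  rw [h2] at h8
  nlinarith

lemma num_hK (hd : 1 ≤ d) : K1 d (sd d) / 2 ^ (nd d) ≤ th0 (sd d) ^ 2 := by
  have hs := sd_ge hd
  have hX := nd_arg hd
  set X := 20000 * d * sd d ^ 7 with hXd
  have hXp : 0 < X := by linarith
  have h0 : 0 ≤ Real.log X := Real.log_nonneg (by linarith)
  have h1 : X ^ 2 ≤ 2 ^ (nd d) := by
    have h2 : 3 * Real.log X ≤ (nd d : ℝ) := Nat.le_ceil _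
    have h3 : Real.log (X ^ 2) ≤ Real.log (2 ^ (nd d)) := by
      rw [Real.log_pow, Real.log_pow]
      push_cast
      have := log_two_ge
      nlinarith
    exact (Real.log_le_log_iff (by positivity) (by positivity)).mp h3
  rw [div_le_iff₀ (by positivity)]
  have h2 : K1 d (sd d) = th0 (sd d) ^ 2 * X ^ 2 := by
    unfold K1 th0
    rw [hXd]
    field_simp
    ring
  rw [h2]
  exact mul_le_mul_of_nonneg_left h1 (by positivity)

lemma Hd_le (hd : 1 ≤ d) : Hd d ≤ sd d := by
  unfold Hd sd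
  have h4 : Real.log d ≤ Real.log (d + 1) := Real.log_le_log (by linarith) (by linarith)
  have := ell_ge hd
  linarith

lemma Ac_bounds (hd : 1 ≤ d) : 0 ≤ Ac d (sd d) ∧ Mc d (sd d) ≤ 140 * sd d := by
  have hs := sd_ge hd
  have hH := Hd_le hd
  have hH1 : 1 ≤ Hd d := by unfold Hd; have := Real.log_nonneg hd; linarith
  have hB1 := ten_le_Bd (sd d)
  have hB := Bd_le (s := sd d) (by linarith)
  have h0 : 0 ≤ Ac d (sd d) := by
    unfold Ac; apply Real.log_nonneg; nlinarith
  have h1 : Ac d (sd d) ≤ 10 * Real.sqrt (sd d) := by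
    unfold Ac
    have h2 : Hd d * Bd (sd d) ≤ sd d ^ 5 := by
      calc Hd d * Bd (sd d) ≤ sd d * sd d ^ 4 :=
            mul_le_mul hH hB (by linarith) (by linarith)
        _ = _ := by ring
    refine (Real.log_le_log (by positivity) h2).trans ?_
    rw [Real.log_pow]
    have h3 : Real.log (sd d) ≤ 2 * Real.sqrt (sd d) := by
      have h4 : Real.log (sd d) = 2 * Real.log (Real.sqrt (sd d)) := by
        rw [Real.log_sqrt (by linarith)]; ring
      have h5 := Real.log_le_sub_one_of_pos (Real.sqrt_pos.mpr (by linarith : 0 < sd d))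
      rw [h4]; linarith
    push_cast
    linarith
  refine ⟨h0, ?_⟩
  have h2 : Real.sqrt (sd d) ^ 2 = sd d := Real.sq_sqrt (by linarith)
  have h3 : 1 ≤ Real.sqrt (sd d) := by
    rw [Real.one_le_sqrt]; linarith
  unfold Mc
  nlinarith

end num

/-- The construction applies to every diagonalised family. -/
theorem diag_order [DecidableEq ι] [Nonempty K] (v : ι → K → ℝ) (lam : K → ℝ)
    (hv : ∀ i, ∑ k, v i k ^ 2 ≤ 1)
    (hgram : ∀ k l, ∑ i, v i k * v i l = if k = l then lam k else 0)
    (hsum : ∀ k, ∑ i, v i k = 0) :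
    ∃ l : List ι, l.Nodup ∧ (∀ i, i ∈ l) ∧
      ∀ m, ∑ k, ((l.take m).map (fun i => v i k)).sum ^ 2 ≤
        700000000 * (Fintype.card K * Real.log (Fintype.card K + 1)) := by
  have hd := one_le_card (K := K)
  set d : ℝ := (Fintype.card K : ℝ) with hdd
  have hs := sd_ge hd
  have hlam : ∀ k, 0 ≤ lam k := by
    intro k
    have := hgram k k
    rw [if_pos rfl] at this
    rw [← this]
    exact Finset.sum_nonneg fun i _ => mul_self_nonneg _
  have hK1pos : 0 < K1 d (sd d) := by
    unfold K1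
    have : 0 < 200 * d * sd d ^ 5 := by positivity
    positivity
  -- depths at which coordinates stop being strong
  have hex : ∀ k, ∃ j : ℕ, lam k / 2 ^ j < K1 d (sd d) := by
    intro k
    obtain ⟨n, hn⟩ := pow_unbounded_of_one_lt (lam k / K1 d (sd d)) (by norm_num : (1:ℝ) < 2)
    refine ⟨n, ?_⟩
    rw [div_lt_iff₀ hK1pos] at hn
    rw [div_lt_iff₀ (by positivity)]
    linarith
  classical
  let P : Par v :=
    { lam := lam
      s := sd d
      n₀ := nd d
      j₁ := fun k => Nat.find (hex k)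
      hv := hv
      hgram := hgram
      hs := by linarith
      hn1 := num_hn1 hd
      hn := num_hn hd
      hL := num_hL hd
      hj := by
        intro k j
        constructor
        · intro h
          exact not_lt.mp (Nat.find_min (hex k) h)
        · intro h
          by_contra hc
          have h1 : Nat.find (hex k) ≤ j := not_lt.mp hc
          have h2 := Nat.find_spec (hex k)
          have h3 : lam k / 2 ^ j ≤ lam k / 2 ^ (Nat.find (hex k)) := by
            apply div_le_div_of_nonneg_left (hlam k) (by positivity)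
            exact pow_le_pow_right₀ (by norm_num) h1
          linarith
      hK := num_hK hd }
  have hMc : 0 ≤ Mc (Fintype.card K) P.s := by
    have := (Ac_bounds hd).1
    change 0 ≤ Mc d (sd d)
    unfold Mc; positivity
  -- a final depth
  have hJex : ∃ J : ℕ, (∀ k, P.j₀ k ≤ J) ∧ ∀ i k, v i k = 0 ∨ P.θ k J ≤ |v i k| := by
    have h1 : ∀ ik : ι × K, ∃ J : ℕ, ∀ J' ≥ J, v ik.1 ik.2 = 0 ∨ P.θ ik.2 J' ≤ |v ik.1 ik.2| := by
      intro ik
      by_cases h0 : v ik.1 ik.2 = 0
      · exact ⟨0, fun _ _ => Or.inl h0⟩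
      · have hpos : 0 < |v ik.1 ik.2| := abs_pos.mpr h0
        have hth := P.th0_pos
        obtain ⟨n, hn⟩ := exists_pow_lt_of_lt_one (div_pos hpos hth)
          (by norm_num : (4/5:ℝ) < 1)
        refine ⟨P.j₀ ik.2 + n, fun J' hJ' => Or.inr ?_⟩
        unfold Par.θ
        have h2 : (4/5:ℝ) ^ (J' - P.j₀ ik.2) ≤ (4/5:ℝ) ^ n := by
          apply pow_le_pow_of_le_one (by norm_num) (by norm_num); omega
        rw [lt_div_iff₀ hth] at hn
        nlinarith
    choose Jf hJf using h1
    refine ⟨(univ.sup Jf) + (univ.sup P.j₀), ?_, ?_⟩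
    · intro k
      have := Finset.le_sup (f := P.j₀) (Finset.mem_univ k)
      omega
    · intro i k
      apply hJf (i, k)
      have := Finset.le_sup (f := Jf) (Finset.mem_univ (i, k))
      omega
  obtain ⟨J, hJ, hfin⟩ := hJex
  obtain ⟨l, hl1, hl2, hl3⟩ := tree hJ hfin hMc J 0 (by omega) univ _ _ _ _
    (root_node P hsum) (root_ledg P hMc)
  refine ⟨l, hl1, fun i => (hl2 i).mpr (Finset.mem_univ i), ?_⟩
  intro m
  have h1 := hl3 m
  simp only [zero_add] at h1
  refine h1.trans ?_
  have h2 := actSum_le P J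
  have h3 := rhoSum_le P J
  have h4 := (Ac_bounds hd).2
  have h5 := num_hn hd
  have hn0 : (P.n₀ : ℝ) ≤ 4 * sd d := by
    change ((nd d : ℕ) : ℝ) ≤ 4 * sd d
    linarith
  have hMc' : 0 ≤ Mc d (sd d) := hMc
  unfold R2 Cp Cm
  change 3 * (962 * actSum P J + (96 * Mc d (sd d) + 1) * d) +
    12 * ((384 * Mc d (sd d) + 2) * rhoSum P J) + 243 * d ≤ _
  have h6 : actSum P J ≤ d * (4 * sd d) := h2.trans (mul_le_mul_of_nonneg_left hn0 (by linarith))
  have h7 : (384 * Mc d (sd d) + 2) * rhoSum P J ≤ (384 * Mc d (sd d) + 2) * d :=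
    mul_le_mul_of_nonneg_left h3 (by linarith)
  have h8 : Mc d (sd d) * d ≤ 140 * sd d * d := mul_le_mul_of_nonneg_right h4 (by linarith)
  have h9 : d * Real.log (d + 1) = d * sd d / 1000 := by unfold sd; ring
  rw [h9]
  have h10 : d ≤ d * sd d := by nlinarith
  nlinarith

end Vale.Agent.P262
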