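import Mathlib

/-!
# Deterministic Gram-Schmidt-walk rounding with an exponential potential
-/

namespace Vale.Agent.P262

open Finset
open scoped RealInnerProductSpace

/-! ### Scalar inequalities -/

lemma tangent_ineq {x t ξ g : ℝ} (hx : |x| ≤ 1) (hxt : |x + t| ≤ 1)
    (hξ : ξ ^ 2 ≤ g) (hg : g ≤ 1 / 64) :
    Real.exp (ξ * t) * (1 + 3 * g * (1 - (x + t) ^ 2)) ≤
      (1 + 3 * g * (1 - x ^ 2)) + t * (ξ * (1 + 3 * g * (1 - x ^ 2)) - 6 * g * x) := by
  have hg0 : 0 ≤ g := le_trans (sq_nonneg _) hξ
  have hx1 := abs_le.mp hx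
  have hxt1 := abs_le.mp hxt
  have hξ8 : |ξ| ≤ 1 / 8 := by
    apply abs_le_of_sq_le_sq _ (by norm_num)
    nlinarith
  have hξ1 := abs_le.mp hξ8
  have ht : |t| ≤ 2 := by
    rw [abs_le]; constructor <;> linarith
  have ht1 := abs_le.mp ht
  have hs : |ξ * t| ≤ 1 := by
    rw [abs_mul]
    calc |ξ| * |t| ≤ 1 / 8 * 2 := mul_le_mul hξ8 ht (abs_nonneg _) (by norm_num)
      _ ≤ 1 := by norm_num
  have hexp : Real.exp (ξ * t) ≤ 1 + ξ * t + (ξ * t) ^ 2 := by
    have := Real.abs_exp_sub_one_sub_id_le hs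
    have := (abs_le.mp this).2
    linarith
  have hpos : 0 ≤ 1 + 3 * g * (1 - (x + t) ^ 2) := by
    have : (x + t) ^ 2 ≤ 1 := by nlinarith
    have : 0 ≤ 3 * g * (1 - (x + t) ^ 2) := by
      apply mul_nonneg <;> nlinarith
    linarith
  have h1 : Real.exp (ξ * t) * (1 + 3 * g * (1 - (x + t) ^ 2)) ≤
      (1 + ξ * t + (ξ * t) ^ 2) * (1 + 3 * g * (1 - (x + t) ^ 2)) :=
    mul_le_mul_of_nonneg_right hexp hpos
  refine h1.trans ?_
  -- remainder
  have key : ξ ^ 2 * (1 + 3 * g * (1 - x ^ 2)) - 6 * g * x * ξ - 3 * g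
      + t * (-6 * g * x * ξ ^ 2 - 3 * g * ξ) - t ^ 2 * (3 * g * ξ ^ 2) ≤ 0 := by
    have hξg : |ξ| * g ≤ 1 / 8 * g := mul_le_mul_of_nonneg_right hξ8 hg0
    have a1 : ξ ^ 2 * (1 + 3 * g * (1 - x ^ 2)) ≤ g * (1 + 3 / 64) := by
      have : 1 + 3 * g * (1 - x ^ 2) ≤ 1 + 3 / 64 := by nlinarith [sq_nonneg x]
      have h0 : 0 ≤ 1 + 3 * g * (1 - x ^ 2) := by
        have : 0 ≤ 1 - x ^ 2 := by nlinarith
        positivity
      exact mul_le_mul hξ this h0 hg0
    have a2 : -6 * g * x * ξ ≤ 6 / 8 * g := by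
      have : |g * x * ξ| ≤ g * (1 / 8) := by
        rw [abs_mul, abs_mul, abs_of_nonneg hg0]
        calc g * |x| * |ξ| ≤ g * 1 * (1 / 8) := by gcongr
          _ = _ := by ring
      have := (abs_le.mp this).1
      nlinarith
    have a3 : t * (-6 * g * x * ξ ^ 2 - 3 * g * ξ) ≤ g * (12 / 64 + 6 / 8) := by
      have e1 : |t * (6 * g * x * ξ ^ 2)| ≤ g * (12 / 64) := by
        have : |t * (6 * g * x * ξ ^ 2)| = 6 * g * |t| * |x| * |ξ| ^ 2 := by
          rw [abs_mul, abs_mul, abs_mul, abs_mul, abs_pow, abs_of_nonneg hg0]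
          norm_num; ring
        rw [this]
        calc 6 * g * |t| * |x| * |ξ| ^ 2 ≤ 6 * g * 2 * 1 * (1 / 8) ^ 2 := by gcongr
          _ = _ := by ring
      have e2 : |t * (3 * g * ξ)| ≤ g * (6 / 8) := by
        have : |t * (3 * g * ξ)| = 3 * g * |t| * |ξ| := by
          rw [abs_mul, abs_mul, abs_mul, abs_of_nonneg hg0]
          norm_num; ring
        rw [this]
        calc 3 * g * |t| * |ξ| ≤ 3 * g * 2 * (1 / 8) := by gcongr
          _ = _ := by ring
      have e1' := (abs_le.mp e1).1
      have e2' := (abs_le.mp e2).1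
      nlinarith
    have a4 : 0 ≤ t ^ 2 * (3 * g * ξ ^ 2) := by positivity
    nlinarith
  have hsq : 0 ≤ t ^ 2 := sq_nonneg t
  nlinarith [mul_nonneg hsq (neg_nonneg.mpr key)]

lemma pot_mono {G G' g g' c : ℝ} (hG'G : G' ≤ G) (hg : 0 ≤ g)
    (hsum : G' + g' ≤ G + g) (hc0 : 0 ≤ c) (hc1 : c ≤ 1) :
    Real.exp (3 * G') * (1 + 3 * g' * c) ≤ Real.exp (3 * G) * (1 + 3 * g * c) := by
  have hΔ : 0 ≤ G - G' := by linarith
  have h1 : 1 + 3 * g' * c ≤ (1 + 3 * g * c) * (1 + 3 * (G - G')) := by
    have : g' ≤ g + (G - G') := by linarith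
    have h2 : 3 * g' * c ≤ 3 * (g + (G - G')) * c := by
      have := mul_le_mul_of_nonneg_right this hc0
      nlinarith
    have h3 : 3 * (G - G') * c ≤ 3 * (G - G') := by nlinarith
    have h4 : 0 ≤ 3 * g * c * (3 * (G - G')) := by positivity
    nlinarith
  have h5 : 1 + 3 * (G - G') ≤ Real.exp (3 * (G - G')) := by
    have := Real.add_one_le_exp (3 * (G - G')); linarith
  have h6 : 0 ≤ 1 + 3 * g * c := by positivity
  calc Real.exp (3 * G') * (1 + 3 * g' * c)
      ≤ Real.exp (3 * G') * ((1 + 3 * g * c) * Real.exp (3 * (G - G'))) := by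
        apply mul_le_mul_of_nonneg_left _ (Real.exp_pos _).le
        exact h1.trans (mul_le_mul_of_nonneg_left h5 h6)
    _ = Real.exp (3 * G) * (1 + 3 * g * c) := by
        have : Real.exp (3 * G) = Real.exp (3 * G') * Real.exp (3 * (G - G')) := by
          rw [← Real.exp_add]; congr 1; ring
        rw [this]; ring

lemma pot_le_exp {G g c : ℝ} (hg : 0 ≤ g) (hc1 : c ≤ 1) :
    Real.exp (3 * G) * (1 + 3 * g * c) ≤ Real.exp (3 * (G + g)) := by
  have h1 : 1 + 3 * g * c ≤ Real.exp (3 * g) := by
    have := Real.add_one_le_exp (3 * g)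
    nlinarith
  calc Real.exp (3 * G) * (1 + 3 * g * c) ≤ Real.exp (3 * G) * Real.exp (3 * g) :=
        mul_le_mul_of_nonneg_left h1 (Real.exp_pos _).le
    _ = _ := by rw [← Real.exp_add]; congr 1; ring

/-! ### Leaving a box -/

lemma exists_exit {ι : Type*} (A : Finset ι) {p : ι} (hp : p ∈ A) (x δ : ι → ℝ)
    (hx : ∀ i ∈ A, |x i| ≤ 1) (hδ : δ p ≠ 0) :
    ∃ t : ℝ, 0 ≤ t ∧ (∀ i ∈ A, |x i + t * δ i| ≤ 1) ∧ ∃ i ∈ A, |x i + t * δ i| = 1 := by
  classical
  set B := A.filter (fun i => δ i ≠ 0) with hB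
  have hBne : B.Nonempty := ⟨p, by simp [hB, hp, hδ]⟩
  set τ : ι → ℝ := fun i => (1 - SignType.sign (δ i) * x i) / |δ i| with hτ
  obtain ⟨i₀, hi₀, hmin⟩ := B.exists_min_image τ hBne
  have hi₀A : i₀ ∈ A := (mem_filter.mp hi₀).1
  have hi₀δ : δ i₀ ≠ 0 := (mem_filter.mp hi₀).2
  have hτ0 : ∀ i ∈ B, 0 ≤ τ i := by
    intro i hi
    have hiA := (mem_filter.mp hi).1
    have := abs_le.mp (hx i hiA)
    apply div_nonneg _ (abs_nonneg _)
    rcases lt_trichotomy (δ i) 0 with h | h | h
    · simp only [sign_neg h]; simp; linarith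
    · simp [h]
    · simp only [sign_pos h]; simp; linarith
  refine ⟨τ i₀, hτ0 i₀ hi₀, ?_, i₀, hi₀A, ?_⟩
  · intro i hi
    have hxi := abs_le.mp (hx i hi)
    by_cases hδi : δ i = 0
    · simp [hδi]; exact hx i hi
    · have hiB : i ∈ B := by simp [hB, hi, hδi]
      have h1 : τ i₀ * |δ i| ≤ 1 - SignType.sign (δ i) * x i := by
        have := hmin i hiB
        have hpos : 0 < |δ i| := abs_pos.mpr hδi
        calc τ i₀ * |δ i| ≤ τ i * |δ i| := mul_le_mul_of_nonneg_right this hpos.le
          _ = _ := by simp only [hτ]; field_simp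
      have h0 : 0 ≤ τ i₀ * |δ i| := mul_nonneg (hτ0 i₀ hi₀) (abs_nonneg _)
      rcases lt_trichotomy (δ i) 0 with h | h | h
      · simp only [sign_neg h, abs_of_neg h] at h1 h0
        simp at h1
        rw [abs_le]; constructor <;> nlinarith
      · exact absurd h hδi
      · simp only [sign_pos h, abs_of_pos h] at h1 h0
        simp at h1
        rw [abs_le]; constructor <;> nlinarith
  · have hpos : 0 < |δ i₀| := abs_pos.mpr hi₀δ
    have h1 : τ i₀ * |δ i₀| = 1 - SignType.sign (δ i₀) * x i₀ := by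
      simp only [hτ]; field_simp
    rcases lt_trichotomy (δ i₀) 0 with h | h | h
    · simp only [sign_neg h, abs_of_neg h] at h1
      simp at h1
      have : x i₀ + τ i₀ * δ i₀ = -1 := by linarith
      rw [this]; simp
    · exact absurd h hi₀δ
    · simp only [sign_pos h, abs_of_pos h] at h1
      simp at h1
      have : x i₀ + τ i₀ * δ i₀ = 1 := by linarith
      rw [this]; simp

/-! ### Projections on spans of finite subfamilies -/

section proj

variable {H : Type*} [NormedAddCommGroup H] [InnerProductSpace ℝ H] [FiniteDimensional ℝ H]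
variable {ι : Type*}

/-- Span of the vectors `b i`, `i ∈ A`. -/
def spanOf (b : ι → H) (A : Finset ι) : Submodule ℝ H := Submodule.span ℝ (b '' (A : Set ι))

/-- Squared norm of the orthogonal projection of `w` onto the span of `b i`, `i ∈ A`. -/
noncomputable def projSq (b : ι → H) (A : Finset ι) (w : H) : ℝ :=
  ‖(spanOf b A).starProjection w‖ ^ 2

lemma projSq_nonneg (b : ι → H) (A : Finset ι) (w : H) : 0 ≤ projSq b A w := sq_nonneg _

omit [FiniteDimensional ℝ H] in
lemma spanOf_mono (b : ι → H) {A A' : Finset ι} (h : A' ⊆ A) : spanOf b A' ≤ spanOf b A :=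
  Submodule.span_mono (Set.image_mono (by exact_mod_cast h))

lemma projSq_le_norm (b : ι → H) (A : Finset ι) (w : H) : projSq b A w ≤ ‖w‖ ^ 2 := by
  unfold projSq
  gcongr
  exact Submodule.norm_starProjection_apply_le _ _

/-- Pythagoras for nested subspaces. -/
lemma proj_pyth {S S' : Submodule ℝ H} (h : S' ≤ S) (w : H) :
    ‖S.starProjection w‖ ^ 2 = ‖S'.starProjection w‖ ^ 2
      + ‖S.starProjection w - S'.starProjection w‖ ^ 2 := by
  have horth : ⟪S'.starProjection w, S.starProjection w - S'.starProjection w⟫ = 0 := by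
    have h1 : ⟪w - S'.starProjection w, S'.starProjection w⟫ = 0 :=
      Submodule.starProjection_inner_eq_zero _ _ (Submodule.starProjection_apply_mem _ _)
    have h2 : ⟪w - S.starProjection w, S'.starProjection w⟫ = 0 :=
      Submodule.starProjection_inner_eq_zero _ _ (h (Submodule.starProjection_apply_mem _ _))
    rw [real_inner_comm]
    rw [inner_sub_left] at *
    linarith
  have : S.starProjection w = S'.starProjection w + (S.starProjection w - S'.starProjection w) := by
    abel
  conv_lhs => rw [this]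
  rw [norm_add_sq_real, horth]; ring

lemma projSq_mono (b : ι → H) {A A' : Finset ι} (h : A' ⊆ A) (w : H) :
    projSq b A' w ≤ projSq b A w := by
  unfold projSq
  rw [proj_pyth (spanOf_mono b h) w]
  nlinarith [sq_nonneg ‖(spanOf b A).starProjection w - (spanOf b A').starProjection w‖]

lemma inner_sq_le_proj {S S' : Submodule ℝ H} (h : S' ≤ S) (w r : H) (hr : r ∈ S)
    (hr' : ∀ u ∈ S', ⟪u, r⟫ = 0) :
    ⟪w, r⟫ ^ 2 ≤ ‖r‖ ^ 2 * (‖S.starProjection w‖ ^ 2 - ‖S'.starProjection w‖ ^ 2) := by
  have h1 : ⟪w, r⟫ = ⟪S.starProjection w - S'.starProjection w, r⟫ := by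
    have a1 : ⟪w - S.starProjection w, r⟫ = 0 := Submodule.starProjection_inner_eq_zero _ _ hr
    have a2 : ⟪S'.starProjection w, r⟫ = 0 := hr' _ (Submodule.starProjection_apply_mem _ _)
    rw [inner_sub_left] at *
    linarith
  have h2 : ‖S.starProjection w‖ ^ 2 - ‖S'.starProjection w‖ ^ 2
      = ‖S.starProjection w - S'.starProjection w‖ ^ 2 := by
    rw [proj_pyth h w]; ring
  rw [h2, h1]
  have := abs_real_inner_le_norm (S.starProjection w - S'.starProjection w) r
  have h3 : ⟪S.starProjection w - S'.starProjection w, r⟫ ^ 2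
      ≤ (‖S.starProjection w - S'.starProjection w‖ * ‖r‖) ^ 2 := by
    rw [← sq_abs]
    gcongr
  calc _ ≤ _ := h3
    _ = _ := by ring

/-- The walk direction. -/
lemma exists_direction [DecidableEq ι] (b : ι → H) (A : Finset ι) {p : ι} (hp : p ∈ A) :
    ∃ δ : ι → ℝ, δ p = 1 ∧ (∀ i, i ∉ A → δ i = 0) ∧
      (∀ u ∈ spanOf b (A.erase p), ⟪u, ∑ i ∈ A, δ i • b i⟫ = 0) ∧
      ‖∑ i ∈ A, δ i • b i‖ ≤ ‖b p‖ := by
  classical
  set S' := spanOf b (A.erase p) with hS'
  have hmem : S'.starProjection (b p) ∈ S' := Submodule.starProjection_apply_mem _ _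
  have hmem' : S'.starProjection (b p) ∈ Submodule.span ℝ (b '' ((A.erase p : Finset ι) : Set ι)) := hmem
  rw [Submodule.mem_span_image_finset_iff_exists_fun'] at hmem'
  obtain ⟨c, hc⟩ := hmem'
  refine ⟨fun i => if i = p then 1 else if i ∈ A then - c i else 0, by simp, ?_, ?_, ?_⟩
  · intro i hi
    have : i ≠ p := fun h => hi (h ▸ hp)
    simp [this, hi]
  · have hsum : ∑ i ∈ A, (if i = p then (1:ℝ) else if i ∈ A then - c i else 0) • b i
        = b p - S'.starProjection (b p) := by
      rw [← Finset.add_sum_erase A _ hp, ← hc]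
      simp only [if_true, one_smul, sub_eq_add_neg, ← Finset.sum_neg_distrib]
      congr 1
      apply Finset.sum_congr rfl
      intro i hi
      have h1 : i ≠ p := Finset.ne_of_mem_erase hi
      have h2 : i ∈ A := Finset.mem_of_mem_erase hi
      simp [h1, h2]
    intro u hu
    rw [hsum, real_inner_comm]
    exact Submodule.starProjection_inner_eq_zero _ _ hu
  · have hsum : ∑ i ∈ A, (if i = p then (1:ℝ) else if i ∈ A then - c i else 0) • b i
        = b p - S'.starProjection (b p) := by
      rw [← Finset.add_sum_erase A _ hp, ← hc]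
      simp only [if_true, one_smul, sub_eq_add_neg, ← Finset.sum_neg_distrib]
      congr 1
      apply Finset.sum_congr rfl
      intro i hi
      have h1 : i ≠ p := Finset.ne_of_mem_erase hi
      have h2 : i ∈ A := Finset.mem_of_mem_erase hi
      simp [h1, h2]
    rw [hsum]
    have horth : ⟪b p - S'.starProjection (b p), S'.starProjection (b p)⟫ = 0 :=
      Submodule.starProjection_inner_eq_zero _ _ hmem
    have : ‖b p‖ ^ 2 = ‖b p - S'.starProjection (b p)‖ ^ 2 + ‖S'.starProjection (b p)‖ ^ 2 := by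
      have e : b p = (b p - S'.starProjection (b p)) + S'.starProjection (b p) := by abel
      conv_lhs => rw [e]
      rw [norm_add_sq_real, horth]; ring
    apply abs_le_of_sq_le_sq' _ (norm_nonneg _) |>.2
    nlinarith [sq_nonneg ‖S'.starProjection (b p)‖]

end proj

/-! ### The rounding lemma -/

section round

variable {H : Type*} [NormedAddCommGroup H] [InnerProductSpace ℝ H] [FiniteDimensional ℝ H]
variable {ι κ : Type*} [DecidableEq ι]

/-- The potential of a form `w` in the state (alive set `A`, pivot `p`, pivot value `x`). -/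
noncomputable def pot (b : ι → H) (A : Finset ι) (p : ι) (x : ℝ) (w : H) : ℝ :=
  Real.exp (3 * projSq b (A.erase p) w) *
    (1 + 3 * (projSq b A w - projSq b (A.erase p) w) * (1 - x ^ 2))

lemma round_aux (b : ι → H) (hb : ∀ i, ‖b i‖ ≤ 1) (Q : Finset κ) (c : κ → ℝ)
    (hc : ∀ q ∈ Q, 0 ≤ c q) (w : κ → H) (hw : ∀ q ∈ Q, ‖w q‖ ≤ 1 / 8) :
    ∀ n : ℕ, ∀ A : Finset ι, A.card = n → ∀ p ∈ A, ∀ x : ι → ℝ, (∀ i ∈ A, |x i| ≤ 1) → ∀ o : H,
      ∃ z : ι → ℝ, (∀ i ∈ A, z i = 1 ∨ z i = -1) ∧ (∀ i, i ∉ A → z i = x i) ∧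
        ∑ q ∈ Q, c q * Real.exp ⟪w q, o + ∑ i ∈ A, (z i - x i) • b i⟫ ≤
          ∑ q ∈ Q, c q * (Real.exp ⟪w q, o⟫ * pot b A p (x p) (w q)) := by
  intro n
  induction n with
  | zero =>
    intro A hA p hp
    rw [Finset.card_eq_zero] at hA
    subst hA; simp at hp
  | succ n ih =>
    intro A hA p hp x hx o
    have hg0 : ∀ q, 0 ≤ projSq b A (w q) - projSq b (A.erase p) (w q) := fun q =>
      sub_nonneg.mpr (projSq_mono b (Finset.erase_subset _ _) _)
    -- from any point of the box with a frozen coordinate we can finish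
    have sub : ∀ x' : ι → ℝ, (∀ i ∈ A, |x' i| ≤ 1) → (∃ i ∈ A, |x' i| = 1) → ∀ o' : H,
        ∃ z : ι → ℝ, (∀ i ∈ A, z i = 1 ∨ z i = -1) ∧ (∀ i, i ∉ A → z i = x' i) ∧
        ∑ q ∈ Q, c q * Real.exp ⟪w q, o' + ∑ i ∈ A, (z i - x' i) • b i⟫ ≤
          ∑ q ∈ Q, c q * (Real.exp ⟪w q, o'⟫ * pot b A p (x' p) (w q)) := by
      intro x' hx' hex o'
      by_cases hxp : |x' p| = 1
      · -- the pivot is frozen
        have hxp2 : x' p ^ 2 = 1 := by rw [← sq_abs, hxp]; norm_num
        have hxp' : x' p = 1 ∨ x' p = -1 := by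
          rcases abs_eq (by norm_num : (0:ℝ) ≤ 1) |>.mp hxp with h | h
          · left; exact h
          · right; exact h
        have hpot : ∀ q, pot b A p (x' p) (w q) = Real.exp (3 * projSq b (A.erase p) (w q)) := by
          intro q; unfold pot; rw [hxp2]; ring
        have hcard : (A.erase p).card = n := by rw [Finset.card_erase_of_mem hp, hA]; rfl
        rcases (A.erase p).eq_empty_or_nonempty with hE | ⟨p', hp'⟩
        · refine ⟨x', ?_, fun _ _ => rfl, ?_⟩
          · intro i hi
            by_cases hip : i = p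
            · rw [hip]; exact hxp'
            · exfalso
              have : i ∈ A.erase p := Finset.mem_erase.mpr ⟨hip, hi⟩
              rw [hE] at this; simp at this
          · simp only [sub_self, zero_smul, Finset.sum_const_zero, add_zero]
            apply Finset.sum_le_sum
            intro q hq
            apply mul_le_mul_of_nonneg_left _ (hc q hq)
            rw [hpot]
            have : 1 ≤ Real.exp (3 * projSq b (A.erase p) (w q)) :=
              Real.one_le_exp (by have := projSq_nonneg b (A.erase p) (w q); positivity)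
            nlinarith [Real.exp_pos ⟪w q, o'⟫]
        · obtain ⟨z, hz1, hz2, hz3⟩ := ih (A.erase p) hcard p' hp' x'
            (fun i hi => hx' i (Finset.mem_of_mem_erase hi)) o'
          have hzp : z p = x' p := hz2 p (Finset.notMem_erase p A)
          refine ⟨z, ?_, ?_, ?_⟩
          · intro i hi
            by_cases hip : i = p
            · rw [hip, hzp]; exact hxp'
            · exact hz1 i (Finset.mem_erase.mpr ⟨hip, hi⟩)
          · intro i hi
            exact hz2 i (fun h => hi (Finset.mem_of_mem_erase h))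
          · have hsum : ∑ i ∈ A, (z i - x' i) • b i = ∑ i ∈ A.erase p, (z i - x' i) • b i := by
              rw [← Finset.add_sum_erase A _ hp, hzp]; simp
            rw [hsum]
            refine hz3.trans ?_
            apply Finset.sum_le_sum
            intro q hq
            apply mul_le_mul_of_nonneg_left _ (hc q hq)
            apply mul_le_mul_of_nonneg_left _ (Real.exp_pos _).le
            rw [hpot]
            unfold pot
            have h1 := pot_le_exp (G := projSq b ((A.erase p).erase p') (w q))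
              (g := projSq b (A.erase p) (w q) - projSq b ((A.erase p).erase p') (w q))
              (c := 1 - x' p' ^ 2)
              (sub_nonneg.mpr (projSq_mono b (Finset.erase_subset _ _) _))
              (by nlinarith [sq_nonneg (x' p')])
            refine h1.trans (le_of_eq ?_)
            congr 1; ring
      · -- another coordinate is frozen
        obtain ⟨i₀, hi₀, hi₀x⟩ := hex
        have hne : i₀ ≠ p := by rintro rfl; exact hxp hi₀x
        have hpA' : p ∈ A.erase i₀ := Finset.mem_erase.mpr ⟨hne.symm, hp⟩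
        have hcard : (A.erase i₀).card = n := by rw [Finset.card_erase_of_mem hi₀, hA]; rfl
        have hxi' : x' i₀ = 1 ∨ x' i₀ = -1 := by
          rcases abs_eq (by norm_num : (0:ℝ) ≤ 1) |>.mp hi₀x with h | h
          · left; exact h
          · right; exact h
        obtain ⟨z, hz1, hz2, hz3⟩ := ih (A.erase i₀) hcard p hpA' x'
          (fun i hi => hx' i (Finset.mem_of_mem_erase hi)) o'
        have hzp : z i₀ = x' i₀ := hz2 i₀ (Finset.notMem_erase i₀ A)
        refine ⟨z, ?_, ?_, ?_⟩
        · intro i hi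
          by_cases hip : i = i₀
          · rw [hip, hzp]; exact hxi'
          · exact hz1 i (Finset.mem_erase.mpr ⟨hip, hi⟩)
        · intro i hi
          exact hz2 i (fun h => hi (Finset.mem_of_mem_erase h))
        · have hsum : ∑ i ∈ A, (z i - x' i) • b i = ∑ i ∈ A.erase i₀, (z i - x' i) • b i := by
            rw [← Finset.add_sum_erase A _ hi₀, hzp]; simp
          rw [hsum]
          refine hz3.trans ?_
          apply Finset.sum_le_sum
          intro q hq
          apply mul_le_mul_of_nonneg_left _ (hc q hq)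
          apply mul_le_mul_of_nonneg_left _ (Real.exp_pos _).le
          unfold pot
          have hxp1 : x' p ^ 2 ≤ 1 := by
            have := hx' p hp
            rw [← sq_abs]; nlinarith [abs_nonneg (x' p)]
          apply pot_mono
          · apply projSq_mono
            intro j hj
            rw [Finset.mem_erase] at *
            exact ⟨hj.1, (Finset.mem_erase.mp hj.2).2⟩
          · exact hg0 q
          · have := projSq_mono b (Finset.erase_subset i₀ A) (w q)
            linarith
          · linarith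
          · nlinarith [sq_nonneg (x' p)]
    -- the walk direction
    obtain ⟨δ, hδp, hδA, hδorth, hδnorm⟩ := exists_direction b A hp
    set r : H := ∑ i ∈ A, δ i • b i with hr
    have hrS : r ∈ spanOf b A := by
      apply Submodule.sum_mem
      intro i hi
      apply Submodule.smul_mem
      apply Submodule.subset_span
      exact ⟨i, by exact_mod_cast hi, rfl⟩
    have hr1 : ‖r‖ ≤ 1 := hδnorm.trans (hb p)
    obtain ⟨tp, htp0, htpbox, htpex⟩ := exists_exit A hp x δ hx (by rw [hδp]; norm_num)
    obtain ⟨tm, htm0, htmbox, htmex⟩ := exists_exit A hp x (fun i => - δ i) hx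
      (by simp [hδp])
    -- slope
    set S : ℝ := ∑ q ∈ Q, c q * (Real.exp ⟪w q, o⟫ * (Real.exp (3 * projSq b (A.erase p) (w q)) *
      (⟪w q, r⟫ * (1 + 3 * (projSq b A (w q) - projSq b (A.erase p) (w q)) * (1 - x p ^ 2))
        - 6 * (projSq b A (w q) - projSq b (A.erase p) (w q)) * x p))) with hS
    have main : ∀ t : ℝ, (∀ i ∈ A, |x i + t * δ i| ≤ 1) → (∃ i ∈ A, |x i + t * δ i| = 1) →
        t * S ≤ 0 →
        ∃ z : ι → ℝ, (∀ i ∈ A, z i = 1 ∨ z i = -1) ∧ (∀ i, i ∉ A → z i = x i) ∧
        ∑ q ∈ Q, c q * Real.exp ⟪w q, o + ∑ i ∈ A, (z i - x i) • b i⟫ ≤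
          ∑ q ∈ Q, c q * (Real.exp ⟪w q, o⟫ * pot b A p (x p) (w q)) := by
      intro t hbox hex htS
      obtain ⟨z, hz1, hz2, hz3⟩ := sub (fun i => x i + t * δ i) hbox hex (o + t • r)
      refine ⟨z, hz1, ?_, ?_⟩
      · intro i hi
        rw [hz2 i hi, hδA i hi]; ring
      · have hsum : o + ∑ i ∈ A, (z i - x i) • b i
            = (o + t • r) + ∑ i ∈ A, (z i - (x i + t * δ i)) • b i := by
          rw [hr, Finset.smul_sum, add_assoc, ← Finset.sum_add_distrib]
          congr 1
          apply Finset.sum_congr rfl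
          intro i _
          rw [smul_smul, ← add_smul]
          congr 1; ring
        rw [hsum]
        refine hz3.trans ?_
        have hx1 : |x p| ≤ 1 := hx p hp
        have hxt1 : |x p + t| ≤ 1 := by
          have := hbox p hp
          rwa [hδp, mul_one] at this
        have step : ∀ q ∈ Q, c q * (Real.exp ⟪w q, o + t • r⟫ *
            pot b A p (x p + t * δ p) (w q)) ≤
            c q * (Real.exp ⟪w q, o⟫ * pot b A p (x p) (w q)) +
            t * (c q * (Real.exp ⟪w q, o⟫ * (Real.exp (3 * projSq b (A.erase p) (w q)) *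
      (⟪w q, r⟫ * (1 + 3 * (projSq b A (w q) - projSq b (A.erase p) (w q)) * (1 - x p ^ 2))
        - 6 * (projSq b A (w q) - projSq b (A.erase p) (w q)) * x p)))) := by
          intro q hq
          have hξ : ⟪w q, r⟫ ^ 2 ≤ projSq b A (w q) - projSq b (A.erase p) (w q) := by
            have h1 := inner_sq_le_proj (spanOf_mono b (Finset.erase_subset p A)) (w q) r hrS hδorth
            have h2 : ‖r‖ ^ 2 ≤ 1 := by nlinarith [norm_nonneg r]
            have h3 := hg0 q
            unfold projSq at *
            nlinarith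
          have hg64 : projSq b A (w q) - projSq b (A.erase p) (w q) ≤ 1 / 64 := by
            have h1 := projSq_le_norm b A (w q)
            have h2 := projSq_nonneg b (A.erase p) (w q)
            have h3 := hw q hq
            have h4 := norm_nonneg (w q)
            nlinarith
          have htan := tangent_ineq (x := x p) (t := t) (ξ := ⟪w q, r⟫)
            (g := projSq b A (w q) - projSq b (A.erase p) (w q)) hx1 hxt1 hξ hg64
          unfold pot
          rw [inner_add_right, inner_smul_right, Real.exp_add, hδp, mul_one]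
          have e1 : Real.exp ⟪w q, o⟫ * Real.exp (t * ⟪w q, r⟫) *
              (Real.exp (3 * projSq b (A.erase p) (w q)) *
              (1 + 3 * (projSq b A (w q) - projSq b (A.erase p) (w q)) * (1 - (x p + t) ^ 2)))
              = (Real.exp ⟪w q, o⟫ * Real.exp (3 * projSq b (A.erase p) (w q))) *
                (Real.exp (⟪w q, r⟫ * t) *
              (1 + 3 * (projSq b A (w q) - projSq b (A.erase p) (w q)) * (1 - (x p + t) ^ 2))) := by
            rw [mul_comm t]; ring
          rw [e1]
          have hpos : 0 ≤ Real.exp ⟪w q, o⟫ * Real.exp (3 * projSq b (A.erase p) (w q)) := by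
            positivity
          have h5 := mul_le_mul_of_nonneg_left htan hpos
          have h6 := mul_le_mul_of_nonneg_left h5 (hc q hq)
          refine h6.trans (le_of_eq ?_)
          ring
        refine (Finset.sum_le_sum step).trans ?_
        rw [Finset.sum_add_distrib, ← Finset.mul_sum, ← hS]
        linarith
    rcases le_total S 0 with hS0 | hS0
    · exact main tp htpbox htpex (mul_nonpos_of_nonneg_of_nonpos htp0 hS0)
    · apply main (-tm)
      · intro i hi
        have := htmbox i hi
        simpa using this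
      · obtain ⟨i, hi, h⟩ := htmex
        exact ⟨i, hi, by simpa using h⟩
      · nlinarith

/-- **Rounding lemma.**  Every fractional point `x` of the cube can be rounded to signs so that
a positive combination of exponentials of small linear forms of the error vector is at most what
independent Gaussian-like errors would give. -/
theorem rounding (b : ι → H) (hb : ∀ i, ‖b i‖ ≤ 1) (Q : Finset κ) (c : κ → ℝ)
    (hc : ∀ q ∈ Q, 0 ≤ c q) (w : κ → H) (hw : ∀ q ∈ Q, ‖w q‖ ≤ 1 / 8)
    (A : Finset ι) (x : ι → ℝ) (hx : ∀ i ∈ A, |x i| ≤ 1) :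
    ∃ z : ι → ℝ, (∀ i ∈ A, z i = 1 ∨ z i = -1) ∧ (∀ i, i ∉ A → z i = x i) ∧
      ∑ q ∈ Q, c q * Real.exp ⟪w q, ∑ i ∈ A, (z i - x i) • b i⟫ ≤
        ∑ q ∈ Q, c q * Real.exp (3 * ‖w q‖ ^ 2) := by
  rcases A.eq_empty_or_nonempty with hE | ⟨p, hp⟩
  · subst hE
    refine ⟨x, by simp, fun _ _ => rfl, ?_⟩
    apply Finset.sum_le_sum
    intro q hq
    apply mul_le_mul_of_nonneg_left _ (hc q hq)
    apply Real.exp_le_exp.mpr
    simp
  · obtain ⟨z, hz1, hz2, hz3⟩ := round_aux b hb Q c hc w hw A.card A rfl p hp x hx 0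
    refine ⟨z, hz1, hz2, ?_⟩
    simp only [zero_add] at hz3
    refine hz3.trans ?_
    apply Finset.sum_le_sum
    intro q hq
    apply mul_le_mul_of_nonneg_left _ (hc q hq)
    rw [inner_zero_right, Real.exp_zero, one_mul]
    unfold pot
    have h1 := pot_le_exp (G := projSq b (A.erase p) (w q))
      (g := projSq b A (w q) - projSq b (A.erase p) (w q)) (c := 1 - x p ^ 2)
      (sub_nonneg.mpr (projSq_mono b (Finset.erase_subset _ _) _))
      (by nlinarith [sq_nonneg (x p)])
    refine h1.trans ?_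
    apply Real.exp_le_exp.mpr
    have h2 := projSq_le_norm b A (w q)
    linarith

end round

end Vale.Agent.P262
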