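import Vale.Agent.P262.Node

/-!
# Existence of good sign patterns
-/

namespace Vale.Agent.P262

open Finset

/-! ### Elementary estimates -/

lemma rank_sum {K : Type*} [DecidableEq K] (f : K → ℕ) : ∀ n : ℕ, ∀ U : Finset K, U.card = n →
    ∑ k ∈ U, (1:ℝ) / ((U.filter (fun l => f l ≤ f k)).card : ℝ) ≤ (harmonic n : ℝ) := by
  intro n
  induction n with
  | zero =>
    intro U hU
    rw [Finset.card_eq_zero] at hU
    subst hU; simp
  | succ n ih =>
    intro U hU
    have hne : U.Nonempty := by rw [← Finset.card_pos, hU]; omega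
    obtain ⟨k₀, hk₀, hmax⟩ := U.exists_max_image f hne
    have hc : (U.erase k₀).card = n := by rw [Finset.card_erase_of_mem hk₀, hU]; rfl
    have h1 := ih (U.erase k₀) hc
    rw [← Finset.add_sum_erase U _ hk₀, harmonic_succ]
    have h2 : U.filter (fun l => f l ≤ f k₀) = U := by
      apply Finset.filter_true_of_mem
      intro l hl; exact hmax l hl
    rw [h2, hU]
    have h3 : ∑ k ∈ U.erase k₀, (1:ℝ) / ((U.filter (fun l => f l ≤ f k)).card : ℝ) ≤
        ∑ k ∈ U.erase k₀, (1:ℝ) / (((U.erase k₀).filter (fun l => f l ≤ f k)).card : ℝ) := by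
      apply Finset.sum_le_sum
      intro k hk
      apply one_div_le_one_div_of_le
      · have : k ∈ (U.erase k₀).filter (fun l => f l ≤ f k) := by
          rw [Finset.mem_filter]; exact ⟨hk, le_refl _⟩
        exact_mod_cast Finset.card_pos.mpr ⟨k, this⟩
      · have : ((U.erase k₀).filter (fun l => f l ≤ f k)).card ≤
            (U.filter (fun l => f l ≤ f k)).card := by
          apply Finset.card_le_card
          apply Finset.filter_subset_filter
          exact Finset.erase_subset _ _
        exact_mod_cast this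
    push_cast
    rw [one_div]
    linarith

lemma sq_le_exp_shift {t A : ℝ} (ht : 0 ≤ t) (hA : 1 ≤ A) :
    t ^ 2 ≤ A ^ 2 + 4 * A * Real.exp (t - A) := by
  rcases le_total t A with h | h
  · have h1 : t ^ 2 ≤ A ^ 2 := by nlinarith
    have h2 : 0 ≤ 4 * A * Real.exp (t - A) := by positivity
    linarith
  · have h1 := Real.quadratic_le_exp_of_nonneg (sub_nonneg.mpr h)
    have h2 : 4 * A * (1 + (t - A) + (t - A) ^ 2 / 2) ≤ 4 * A * Real.exp (t - A) :=
      mul_le_mul_of_nonneg_left h1 (by linarith)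
    nlinarith [sq_nonneg (t - A)]

lemma half_sq_le_exp {t : ℝ} (ht : 0 ≤ t) : t ^ 2 / 2 ≤ Real.exp t := by
  have := Real.quadratic_le_exp_of_nonneg ht
  linarith

/-- Weighted second moments from weighted exponential moments. -/
lemma moment_bound {K : Type*} (S : Finset K) (w t : K → ℝ) {W B : ℝ} (ht : ∀ k ∈ S, 0 ≤ t k)
    (hw : ∀ k ∈ S, 0 ≤ w k) (hW : ∑ k ∈ S, w k = W)
    (hB : Real.exp 1 ≤ B) (h : ∑ k ∈ S, w k * Real.exp (t k) ≤ W * B) :
    ∑ k ∈ S, w k * t k ^ 2 ≤ W * (Real.log B ^ 2 + 4 * Real.log B) := by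
  have hB0 : 0 < B := lt_of_lt_of_le (Real.exp_pos _) hB
  have hA : 1 ≤ Real.log B := by
    rw [Real.le_log_iff_exp_le hB0]; exact hB
  have h1 : ∀ k ∈ S, w k * t k ^ 2 ≤ w k * Real.log B ^ 2 +
      4 * Real.log B / B * (w k * Real.exp (t k)) := by
    intro k hk
    have h2 := sq_le_exp_shift (ht k hk) hA
    rw [Real.exp_sub, Real.exp_log hB0] at h2
    have h3 := mul_le_mul_of_nonneg_left h2 (hw k hk)
    calc _ ≤ _ := h3
      _ = _ := by ring
  refine (Finset.sum_le_sum h1).trans ?_
  rw [Finset.sum_add_distrib, ← Finset.sum_mul, ← Finset.mul_sum, hW]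
  have h4 : 4 * Real.log B / B * ∑ k ∈ S, w k * Real.exp (t k) ≤ 4 * Real.log B / B * (W * B) :=
    mul_le_mul_of_nonneg_left h (by positivity)
  have h5 : 4 * Real.log B / B * (W * B) = W * (4 * Real.log B) := by field_simp
  linarith

lemma cs_le {ι : Type*} (g : Finset ι) (y α : ι → ℝ) {η : ℝ} (hη : 0 ≤ η)
    (hy : ∑ i ∈ g, y i ^ 2 ≤ η ^ 2) :
    |∑ i ∈ g, y i * α i| ≤ η * Real.sqrt (∑ i ∈ g, α i ^ 2) := by
  have h1 := Finset.sum_mul_sq_le_sq_mul_sq g y α
  have h2 : 0 ≤ ∑ i ∈ g, α i ^ 2 := Finset.sum_nonneg fun i _ => sq_nonneg _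
  apply abs_le_of_sq_le_sq _ (by positivity)
  rw [mul_pow, Real.sq_sqrt h2]
  exact h1.trans (mul_le_mul_of_nonneg_right hy h2)

variable {ι K : Type*} [Fintype ι] [Fintype K] [DecidableEq K]

/-- Active coordinates. -/
def actS {v : ι → K → ℝ} (P : Par v) (j : ℕ) : Finset K :=
  univ.filter (fun k => P.j₁ k ≤ j ∧ j < P.j₀ k)

/-- Strong coordinates. -/
def strS {v : ι → K → ℝ} (P : Par v) (j : ℕ) : Finset K :=
  univ.filter (fun k => j < P.j₁ k)

/-- Mass weights. -/
noncomputable def rho {v : ι → K → ℝ} (P : Par v) (j : ℕ) (k : K) : ℝ := (1 / 2) ^ (P.j₀ k - j)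

/-- Correction coefficients. -/
noncomputable def cor {v : ι → K → ℝ} (P : Par v) (j : ℕ) (p q : K → ℝ) (k : K) : ℝ :=
  if j < P.j₁ k then -(p k + q k) / P.E k j else 0

/-- Fractional signs. -/
noncomputable def frac {v : ι → K → ℝ} (P : Par v) (j : ℕ) (p q : K → ℝ) (i : ι) : ℝ :=
  ∑ k, cor P j p q k * v i k

section cor

variable [Nonempty K] {v : ι → K → ℝ} {P : Par v} {j : ℕ} {g : Finset ι} {p q M F : K → ℝ}

omit [DecidableEq K] in
lemma one_le_card : (1:ℝ) ≤ Fintype.card K := by exact_mod_cast Fintype.card_pos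

omit [Nonempty K] in
lemma sqrt_E_ge {k : K} (hk : j < P.j₁ k) :
    200 * Fintype.card K * P.s ^ 5 ≤ Real.sqrt (P.E k j) := by
  apply Real.le_sqrt_of_sq_le
  exact (P.hj k j).mp hk

lemma cor_bound (N : Node P j g p q M F) (k : K) :
    |cor P j p q k| * Real.sqrt (P.E k j) ≤ 1 / (100 * Fintype.card K * P.s ^ 4) ∧
    |cor P j p q k| ≤ 1 / (Fintype.card K * P.s ^ 4) ∧
    |cor P j p q k * P.E k j| ≤ 2 * P.s := by
  have hs := P.s_pos
  have hs45 := P.hs
  have hd := one_le_card (K := K)
  unfold cor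
  split_ifs with hk
  · have h1 := sqrt_E_ge (P := P) hk
    have h0 : (0:ℝ) < 200 * Fintype.card K * P.s ^ 5 := by positivity
    have hr : 0 < Real.sqrt (P.E k j) := lt_of_lt_of_le h0 h1
    have hE : 0 < P.E k j := Real.sqrt_pos.mp hr
    have hEr : Real.sqrt (P.E k j) * Real.sqrt (P.E k j) = P.E k j := Real.mul_self_sqrt hE.le
    have h2 := N.strong k hk
    have h3 : |-(p k + q k)| ≤ 2 * P.s := by
      rw [abs_neg]
      have := abs_add_le (p k) (q k)
      linarith [h2.1, h2.2]
    have h4 : |-(p k + q k) / P.E k j| ≤ 2 * P.s / P.E k j := by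
      rw [abs_div, abs_of_pos hE]
      exact div_le_div_of_nonneg_right h3 hE.le
    have h5 : |-(p k + q k) / P.E k j| * Real.sqrt (P.E k j) ≤
        1 / (100 * Fintype.card K * P.s ^ 4) := by
      calc |-(p k + q k) / P.E k j| * Real.sqrt (P.E k j)
          ≤ 2 * P.s / P.E k j * Real.sqrt (P.E k j) := mul_le_mul_of_nonneg_right h4 hr.le
        _ = 2 * P.s / Real.sqrt (P.E k j) := by
            rw [div_mul_eq_mul_div, div_eq_div_iff hE.ne' hr.ne', mul_assoc, hEr]
        _ ≤ 2 * P.s / (200 * Fintype.card K * P.s ^ 5) :=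
            div_le_div_of_nonneg_left (by positivity) h0 h1
        _ = _ := by field_simp; norm_num
    refine ⟨h5, ?_, ?_⟩
    · have h6 : 1 ≤ Real.sqrt (P.E k j) := by
        refine le_trans ?_ h1
        have : (1:ℝ) ≤ P.s ^ 5 := one_le_pow₀ (by linarith)
        nlinarith
      calc |-(p k + q k) / P.E k j| ≤ |-(p k + q k) / P.E k j| * Real.sqrt (P.E k j) := by
            nlinarith [abs_nonneg (-(p k + q k) / P.E k j)]
        _ ≤ 1 / (100 * Fintype.card K * P.s ^ 4) := h5
        _ ≤ 1 / (Fintype.card K * P.s ^ 4) := by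
            apply one_div_le_one_div_of_le (by positivity)
            have : (0:ℝ) ≤ Fintype.card K * P.s ^ 4 := by positivity
            nlinarith
    · rw [div_mul_cancel₀ _ hE.ne']
      exact h3
  · refine ⟨?_, ?_, ?_⟩
    · rw [abs_zero, zero_mul]; positivity
    · rw [abs_zero]; positivity
    · rw [zero_mul, abs_zero]; positivity

lemma frac_le_one (N : Node P j g p q M F) (i : ι) : |frac P j p q i| ≤ 1 := by
  have hs45 := P.hs
  have hd := one_le_card (K := K)
  have h4 : (1:ℝ) ≤ P.s ^ 4 := one_le_pow₀ (by linarith)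
  unfold frac
  refine (Finset.abs_sum_le_sum_abs _ _).trans ?_
  have : ∀ k ∈ (univ : Finset K), |cor P j p q k * v i k| ≤ 1 / Fintype.card K := by
    intro k _
    rw [abs_mul]
    have h1 := (cor_bound N k).2.1
    have h2 := P.abs_v_le i k
    have h3 : 1 / (Fintype.card K * P.s ^ 4) ≤ 1 / (Fintype.card K : ℝ) := by
      apply one_div_le_one_div_of_le (by linarith)
      nlinarith
    calc |cor P j p q k| * |v i k| ≤ |cor P j p q k| * 1 :=
          mul_le_mul_of_nonneg_left h2 (abs_nonneg _)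
      _ ≤ _ := by linarith
  refine (Finset.sum_le_sum this).trans ?_
  rw [Finset.sum_const, nsmul_eq_mul, Finset.card_univ]
  apply le_of_eq
  field_simp

lemma frac_sum (N : Node P j g p q M F) (k : K) :
    |∑ i ∈ g, frac P j p q i * v i k - cor P j p q k * P.E k j| ≤ 1 / (20 * P.s ^ 3) := by
  have hs := P.s_pos
  have hs45 := P.hs
  have hd := one_le_card (K := K)
  have h1 : ∑ i ∈ g, frac P j p q i * v i k - cor P j p q k * P.E k j =
      ∑ l, cor P j p q l * (∑ i ∈ g, v i k * v i l - (if k = l then P.E l j else 0)) := by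
    unfold frac
    have e1 : ∀ i, (∑ l, cor P j p q l * v i l) * v i k =
        ∑ l, cor P j p q l * (v i k * v i l) := by
      intro i; rw [Finset.sum_mul]; apply Finset.sum_congr rfl; intro l _; ring
    simp only [e1]
    rw [Finset.sum_comm]
    simp only [mul_sub, Finset.sum_sub_distrib, ← Finset.mul_sum]
    congr 1
    simp
  rw [h1]
  refine (Finset.abs_sum_le_sum_abs _ _).trans ?_
  have h2 : ∀ l ∈ (univ : Finset K), |cor P j p q l *
      (∑ i ∈ g, v i k * v i l - (if k = l then P.E l j else 0))| ≤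
      1 / (20 * P.s ^ 3) / Fintype.card K := by
    intro l _
    by_cases hl : j < P.j₁ l
    · have h3 : 4 * P.s ^ 2 ≤ P.E l j := P.K1_ge.trans ((P.hj l j).mp hl)
      have h4 := N.gram k l h3
      have h5 := (cor_bound N l).1
      rw [abs_mul]
      calc |cor P j p q l| * |∑ i ∈ g, v i k * v i l - (if k = l then P.E l j else 0)|
          ≤ |cor P j p q l| * (5 * P.s * Real.sqrt (P.E l j)) :=
            mul_le_mul_of_nonneg_left h4 (abs_nonneg _)
        _ = 5 * P.s * (|cor P j p q l| * Real.sqrt (P.E l j)) := by ring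
        _ ≤ 5 * P.s * (1 / (100 * Fintype.card K * P.s ^ 4)) :=
            mul_le_mul_of_nonneg_left h5 (by positivity)
        _ = _ := by field_simp; norm_num
    · have : cor P j p q l = 0 := by unfold cor; rw [if_neg hl]
      rw [this, zero_mul, abs_zero]; positivity
  refine (Finset.sum_le_sum h2).trans ?_
  rw [Finset.sum_const, nsmul_eq_mul, Finset.card_univ]
  apply le_of_eq
  field_simp

lemma frac_sq (N : Node P j g p q M F) :
    ∑ i ∈ g, frac P j p q i ^ 2 ≤ (1 / (60 * P.s ^ 2)) ^ 2 := by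
  have hs := P.s_pos
  have hs45 := P.hs
  have hd := one_le_card (K := K)
  have h1 : ∑ i ∈ g, frac P j p q i ^ 2 =
      ∑ k, cor P j p q k * (∑ i ∈ g, frac P j p q i * v i k) := by
    have e1 : ∀ i, frac P j p q i ^ 2 = ∑ k, cor P j p q k * (frac P j p q i * v i k) := by
      intro i
      have : frac P j p q i ^ 2 = frac P j p q i * ∑ k, cor P j p q k * v i k := by
        rw [pow_two]; rfl
      rw [this, Finset.mul_sum]
      apply Finset.sum_congr rfl; intro l _; ring
    simp only [e1]
    rw [Finset.sum_comm]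
    simp only [← Finset.mul_sum]
  rw [h1]
  have h2 : ∀ k ∈ (univ : Finset K), cor P j p q k * (∑ i ∈ g, frac P j p q i * v i k) ≤
      1 / (3600 * P.s ^ 4) / Fintype.card K := by
    intro k _
    by_cases hk : j < P.j₁ k
    · have h3 := frac_sum N k
      obtain ⟨h4, -, h6⟩ := cor_bound N k
      have h7 : |∑ i ∈ g, frac P j p q i * v i k| ≤ 3 * P.s := by
        have h8 := abs_sub_abs_le_abs_sub (∑ i ∈ g, frac P j p q i * v i k)
          (cor P j p q k * P.E k j)
        have h9 : 1 / (20 * P.s ^ 3) ≤ 1 := by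
          rw [div_le_one (by positivity)]
          have : (1:ℝ) ≤ P.s ^ 3 := one_le_pow₀ (by linarith)
          linarith
        linarith
      have h10 := sqrt_E_ge (P := P) hk
      have h11 : |cor P j p q k| * (200 * Fintype.card K * P.s ^ 5) ≤
          1 / (100 * Fintype.card K * P.s ^ 4) :=
        (mul_le_mul_of_nonneg_left h10 (abs_nonneg _)).trans h4
      have h12 : |cor P j p q k| ≤ 1 / (20000 * Fintype.card K ^ 2 * P.s ^ 9) := by
        rw [le_div_iff₀ (by positivity)] at h11 ⊢
        calc _ = |cor P j p q k| * (200 * Fintype.card K * P.s ^ 5) *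
              (100 * Fintype.card K * P.s ^ 4) := by ring
          _ ≤ 1 := h11
      refine (le_abs_self _).trans ?_
      rw [abs_mul]
      calc |cor P j p q k| * |∑ i ∈ g, frac P j p q i * v i k| ≤
          1 / (20000 * Fintype.card K ^ 2 * P.s ^ 9) * (3 * P.s) :=
            mul_le_mul h12 h7 (abs_nonneg _) (by positivity)
        _ ≤ 1 / (3600 * P.s ^ 4) / Fintype.card K := by
            rw [div_mul_eq_mul_div, div_div, div_le_div_iff₀ (by positivity) (by positivity)]
            have e1 : (1:ℝ) ≤ P.s ^ 4 := one_le_pow₀ (by linarith)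
            have e2 : (0:ℝ) < P.s ^ 5 := by positivity
            have e3 : 1 * (3 * P.s) * (3600 * P.s ^ 4 * Fintype.card K) =
              10800 * (P.s ^ 5 * Fintype.card K) := by ring
            have e4 : 1 * (20000 * (Fintype.card K : ℝ) ^ 2 * P.s ^ 9) =
              20000 * (P.s ^ 5 * Fintype.card K) * (Fintype.card K * P.s ^ 4) := by ring
            rw [e3, e4]
            have e5 : (0:ℝ) < P.s ^ 5 * Fintype.card K := by positivity
            have e6 : (1:ℝ) ≤ Fintype.card K * P.s ^ 4 := by nlinarith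
            nlinarith
    · have : cor P j p q k = 0 := by unfold cor; rw [if_neg hk]
      rw [this, zero_mul]; positivity
  refine (Finset.sum_le_sum h2).trans ?_
  rw [Finset.sum_const, nsmul_eq_mul, Finset.card_univ]
  apply le_of_eq
  field_simp
  norm_num

end cor

end Vale.Agent.P262
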