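import Vale.Agent.P262.Root

/-!
# From diagonal families to arbitrary families in Euclidean space
-/

namespace Vale.Agent.P262

open Finset
open scoped RealInnerProductSpace

/-- The quadratic form of the family as an operator. -/
noncomputable def frameOp {d N : ℕ} (v : Fin N → EuclideanSpace ℝ (Fin d)) :
    EuclideanSpace ℝ (Fin d) →ₗ[ℝ] EuclideanSpace ℝ (Fin d) where
  toFun x := ∑ i, ⟪v i, x⟫ • v i
  map_add' x y := by
    rw [← Finset.sum_add_distrib]
    apply Finset.sum_congr rfl
    intro i _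
    rw [inner_add_right, add_smul]
  map_smul' c x := by
    rw [RingHom.id_apply, Finset.smul_sum]
    apply Finset.sum_congr rfl
    intro i _
    rw [inner_smul_right, smul_smul]

lemma frameOp_symm {d N : ℕ} (v : Fin N → EuclideanSpace ℝ (Fin d)) :
    (frameOp v).IsSymmetric := by
  intro x y
  change ⟪∑ i, ⟪v i, x⟫ • v i, y⟫ = ⟪x, ∑ i, ⟪v i, y⟫ • v i⟫
  rw [sum_inner, inner_sum]
  apply Finset.sum_congr rfl
  intro i _
  rw [inner_smul_left, inner_smul_right, real_inner_comm x (v i)]
  simp
  ring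

/-- A permutation realising a duplicate-free list of all indices. -/
lemma exists_perm {N : ℕ} (l : List (Fin N)) (hl : l.Nodup) (h : ∀ i, i ∈ l) :
    ∃ π : Equiv.Perm (Fin N), ∀ {E : Type} [AddCommMonoid E] (f : Fin N → E) (k : ℕ), k ≤ N →
      ∑ i ∈ univ.filter (fun i : Fin N => (i : ℕ) < k), f (π i) = ((l.take k).map f).sum := by
  have hlen : l.length = N := by
    have h1 : l.toFinset = univ := by ext i; simp [h i]
    rw [← List.toFinset_card_of_nodup hl, h1, Finset.card_univ, Fintype.card_fin]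
  let e : Fin l.length ≃ Fin N := hl.getEquivOfForallMemList l h
  refine ⟨(finCongr hlen.symm).trans e, ?_⟩
  intro E _ f k hk
  have h1 : ∀ i : Fin N, ((finCongr hlen.symm).trans e) i = l[(i : ℕ)]'(by omega) := by
    intro i
    rfl
  simp only [h1]
  have h2 : ((l.take k).map f).sum = ∑ i : Fin k, f (l[(i : ℕ)]'(by omega)) := by
    have h3 : (l.take k).map f = List.ofFn (fun i : Fin k => f (l[(i : ℕ)]'(by omega))) := by
      apply List.ext_getElem
      · simp; omega
      · intro n h1 h2
        simp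
    rw [h3, List.sum_ofFn]
  rw [h2]
  refine Finset.sum_bij' (fun i hi => (⟨i, (Finset.mem_filter.mp hi).2⟩ : Fin k))
    (fun i _ => (⟨i, by omega⟩ : Fin N)) ?_ ?_ ?_ ?_ ?_
  · intro i hi; exact Finset.mem_univ _
  · intro i hi; rw [Finset.mem_filter]; exact ⟨Finset.mem_univ _, i.2⟩
  · intro i hi; rfl
  · intro i hi; rfl
  · intro i hi; rfl

/-- Every finite zero-sum family of vectors of norm at most one can be ordered so that all
partial sums have norm at most a constant times the square root of `d log (d+1)`. -/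
theorem steinitz_order {d N : ℕ} (hd : 1 ≤ d) (v : Fin N → EuclideanSpace ℝ (Fin d))
    (hv : ∀ i, ‖v i‖ ≤ 1) (hsum : ∑ i, v i = 0) :
    ∃ π : Equiv.Perm (Fin N), ∀ k : ℕ, k ≤ N →
      ‖∑ i ∈ univ.filter (fun i : Fin N => (i : ℕ) < k), v (π i)‖ ≤
        26458 * Real.sqrt (d * Real.log (d + 1)) := by
  have : Nonempty (Fin d) := ⟨⟨0, hd⟩⟩
  have hT := frameOp_symm v
  have hfr : Module.finrank ℝ (EuclideanSpace ℝ (Fin d)) = d := finrank_euclideanSpace_fin
  set b : OrthonormalBasis (Fin d) ℝ (EuclideanSpace ℝ (Fin d)) := hT.eigenvectorBasis hfr with hb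
  set lam : Fin d → ℝ := hT.eigenvalues hfr with hlam
  have heig : ∀ l, frameOp v (b l) = lam l • b l := fun l => hT.apply_eigenvectorBasis hfr l
  set w : Fin N → Fin d → ℝ := fun i k => ⟪b k, v i⟫ with hw
  have hw1 : ∀ i, ∑ k, w i k ^ 2 ≤ 1 := by
    intro i
    have h1 := b.sum_sq_norm_inner_right (v i)
    have h2 : ∑ k, w i k ^ 2 = ‖v i‖ ^ 2 := by
      rw [← h1]
      apply Finset.sum_congr rfl
      intro k _
      rw [Real.norm_eq_abs, sq_abs]
    rw [h2]
    have := hv i
    have h3 := norm_nonneg (v i)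
    nlinarith
  have hw2 : ∀ k l, ∑ i, w i k * w i l = if k = l then lam k else 0 := by
    intro k l
    have h1 : ⟪b k, frameOp v (b l)⟫ = ∑ i, w i k * w i l := by
      change ⟪b k, ∑ i, ⟪v i, b l⟫ • v i⟫ = _
      rw [inner_sum]
      apply Finset.sum_congr rfl
      intro i _
      rw [inner_smul_right]
      simp only [hw]
      rw [real_inner_comm (b l) (v i)]; ring
    rw [← h1, heig l, inner_smul_right, orthonormal_iff_ite.mp b.orthonormal k l]
    split_ifs with h
    · rw [h]; simp
    · simp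
  have hw3 : ∀ k, ∑ i, w i k = 0 := by
    intro k
    simp only [hw]
    rw [← inner_sum, hsum, inner_zero_right]
  obtain ⟨l, hl1, hl2, hl3⟩ := diag_order w lam hw1 hw2 hw3
  obtain ⟨π, hπ⟩ := exists_perm l hl1 hl2
  refine ⟨π, ?_⟩
  intro k hk
  rw [hπ v k hk]
  have h1 := hl3 k
  rw [Fintype.card_fin] at h1
  have h2 : ‖((l.take k).map v).sum‖ ^ 2 =
      ∑ m, ((l.take k).map (fun i => w i m)).sum ^ 2 := by
    rw [← b.sum_sq_norm_inner_right]
    apply Finset.sum_congr rfl
    intro m _
    rw [Real.norm_eq_abs, sq_abs]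
    congr 1
    have h3 : ∀ l' : List (Fin N), ⟪b m, (l'.map v).sum⟫ = (l'.map (fun i => w i m)).sum := by
      intro l'
      induction l' with
      | nil => simp
      | cons a t ih =>
        rw [List.map_cons, List.sum_cons, List.map_cons, List.sum_cons, inner_add_right, ih]
    exact h3 _
  have hlog : 0 ≤ (d:ℝ) * Real.log (d + 1) := by
    apply mul_nonneg (Nat.cast_nonneg _)
    apply Real.log_nonneg
    have : (0:ℝ) ≤ d := Nat.cast_nonneg _
    linarith
  have h3 : ‖((l.take k).map v).sum‖ ^ 2 ≤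
      (26458 * Real.sqrt (d * Real.log (d + 1))) ^ 2 := by
    rw [h2, mul_pow, Real.sq_sqrt hlog]
    nlinarith
  exact le_of_sq_le_sq h3 (by positivity)

end Vale.Agent.P262
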