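import Vale.Agent.P262.Good

/-!
# The halving tree
-/

namespace Vale.Agent.P262

open Finset

variable {ι K : Type*} [Fintype ι] [Fintype K] [DecidableEq K]

/-- Total number of active coordinates above depth `j`. -/
noncomputable def actSum {v : ι → K → ℝ} (P : Par v) (j : ℕ) : ℝ :=
  ∑ b ∈ range j, ((actS P b).card : ℝ)

/-- Total mass weight above depth `j`. -/
noncomputable def rhoSum {v : ι → K → ℝ} (P : Par v) (j : ℕ) : ℝ :=
  ∑ b ∈ range j, ∑ k ∈ actS P b, rho P b k

/-- Contribution of coordinate `k` to the position ledger. -/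
noncomputable def phi {v : ι → K → ℝ} (P : Par v) (j m : ℕ) (x F : K → ℝ) (k : K) : ℝ :=
  if P.j₀ k ≤ j then F k else if P.j₁ k ≤ m then x k ^ 2 else 0

/-- Constant in front of the number of entered coordinates. -/
noncomputable def Cp (d s : ℝ) : ℝ := 96 * Mc d s + 1

/-- Constant in front of the mass ledger. -/
noncomputable def Cm (d s : ℝ) : ℝ := 384 * Mc d s + 2

/-- Coordinates which have entered before depth `m`. -/
noncomputable def ent {v : ι → K → ℝ} (P : Par v) (m : ℕ) : ℝ :=
  ((univ.filter (fun k => P.j₁ k ≤ m)).card : ℝ)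

/-- The ledgers of a node. -/
structure Ledg {v : ι → K → ℝ} (P : Par v) (j : ℕ) (p q M F : K → ℝ) : Prop where
  lp : ∀ m, j ≤ m → ∑ k, phi P j m p F k ≤
    962 * actSum P j + Cp (Fintype.card K) P.s * ent P m
  lq : ∀ m, j ≤ m → ∑ k, phi P j m q F k ≤
    962 * actSum P j + Cp (Fintype.card K) P.s * ent P m
  lm : ∑ k, rho P j k * M k ^ 2 ≤ Cm (Fintype.card K) P.s * rhoSum P j

section

variable {v : ι → K → ℝ} {P : Par v} {j : ℕ} {g : Finset ι} {p q M F : K → ℝ} {z : ι → ℝ}

lemma actSum_succ : actSum P (j + 1) = actSum P j + ((actS P j).card : ℝ) := by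
  unfold actSum; rw [Finset.sum_range_succ]

lemma actSum_mono : actSum P j ≤ actSum P (j + 1) := by
  rw [actSum_succ]
  have : (0:ℝ) ≤ ((actS P j).card : ℝ) := Nat.cast_nonneg _
  linarith

lemma rhoSum_succ : rhoSum P (j + 1) = rhoSum P j + ∑ k ∈ actS P j, rho P j k := by
  unfold rhoSum; rw [Finset.sum_range_succ]

/-- Old endpoints keep their ledger. -/
lemma phi_old {x x' y' : K → ℝ} {m : ℕ} (hm : j + 1 ≤ m) (hx : x' = x ∨ y' = x) :
    ∑ k, phi P (j + 1) m x (newF P j x' y' F) k ≤ ∑ k, phi P j m x F k := by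
  apply Finset.sum_le_sum
  intro k _
  unfold phi newF
  by_cases h1 : P.j₀ k ≤ j
  · have h2 : P.j₀ k ≤ j + 1 := by omega
    simp [h1, h2]
  · by_cases h2 : P.j₀ k ≤ j + 1
    · have h3 : P.j₁ k ≤ m := by
        have : P.j₁ k ≤ P.j₀ k := Nat.le_add_right _ _
        omega
      simp only [h1, h2, h3, if_true, if_false]
      rcases hx with hx | hx
      · rw [hx]; exact min_le_left _ _
      · rw [hx]; exact min_le_right _ _
    · simp [h1, h2]

lemma ent_split {m : ℕ} (hm : j ≤ m) : ent P m = ent P j +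
    ((univ.filter (fun k => j < P.j₁ k ∧ P.j₁ k ≤ m)).card : ℝ) := by
  unfold ent
  rw [← Nat.cast_add, ← Finset.card_union_of_disjoint]
  · congr 2
    ext k
    simp only [Finset.mem_filter, Finset.mem_univ, true_and, Finset.mem_union]
    omega
  · rw [Finset.disjoint_left]
    intro k hk hk'
    rw [Finset.mem_filter] at hk hk'
    omega

lemma phi_mid [Nonempty K] (Z : Good P j g p q z) (L : Ledg P j p q M F) {m : ℕ}
    (hm : j ≤ m) : ∑ k, phi P j m (midp v g p q z) F k ≤
      962 * actSum P (j + 1) + Cp (Fintype.card K) P.s * ent P m := by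
  have h1 : ∀ k, phi P j m (midp v g p q z) F k ≤
      (phi P j j p F k + phi P j j q F k) / 2 +
      (if k ∈ actS P j then midp v g p q z k ^ 2 - ((p k + q k) / 2) ^ 2 else 0) +
      (if k ∈ univ.filter (fun k => j < P.j₁ k ∧ P.j₁ k ≤ m) then midp v g p q z k ^ 2
        else 0) := by
    intro k
    unfold phi actS
    simp only [Finset.mem_filter, Finset.mem_univ, true_and]
    by_cases a1 : P.j₀ k ≤ j
    · have a2 : ¬ (P.j₁ k ≤ j ∧ j < P.j₀ k) := by omega
      have a3 : ¬ (j < P.j₁ k ∧ P.j₁ k ≤ m) := by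
        have : P.j₁ k ≤ P.j₀ k := Nat.le_add_right _ _
        omega
      simp only [a1, a2, a3, if_true, if_false]
      linarith
    · by_cases a2 : P.j₁ k ≤ j
      · have a3 : P.j₁ k ≤ j ∧ j < P.j₀ k := by omega
        have a4 : ¬ (j < P.j₁ k ∧ P.j₁ k ≤ m) := by omega
        have a5 : P.j₁ k ≤ m := by omega
        rw [if_neg a1, if_pos a5, if_neg a1, if_pos a2, if_neg a1, if_pos a2, if_pos a3,
          if_neg a4]
        nlinarith [sq_nonneg (p k - q k)]
      · have a3 : ¬ (P.j₁ k ≤ j ∧ j < P.j₀ k) := by omega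
        rw [if_neg a1, if_neg a1, if_neg a1, if_neg a2, if_neg a2, if_neg a3]
        by_cases a4 : P.j₁ k ≤ m
        · have a5 : j < P.j₁ k ∧ P.j₁ k ≤ m := by omega
          rw [if_pos a4, if_pos a5]; linarith
        · have a5 : ¬ (j < P.j₁ k ∧ P.j₁ k ≤ m) := by omega
          rw [if_neg a4, if_neg a5]; linarith
  refine (Finset.sum_le_sum fun k _ => h1 k).trans ?_
  rw [Finset.sum_add_distrib, Finset.sum_add_distrib, ← Finset.sum_div, Finset.sum_add_distrib,
    Finset.sum_ite_mem, Finset.sum_ite_mem, Finset.univ_inter, Finset.univ_inter,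
    Finset.sum_sub_distrib]
  have h2 := L.lp j (le_refl _)
  have h3 := L.lq j (le_refl _)
  have h4 := Z.quad
  have h5 := Z.iso m
  rw [actSum_succ, ent_split (P := P) hm]
  unfold Cp at *
  linarith

lemma mass_ledger [Nonempty K] (Z : Good P j g p q z) (L : Ledg P j p q M F) :
    ∑ k, rho P (j + 1) k * newM P j g z M k ^ 2 ≤
      Cm (Fintype.card K) P.s * rhoSum P (j + 1) := by
  have h1 : ∀ k, rho P (j + 1) k * newM P j g z M k ^ 2 ≤ rho P j k * M k ^ 2 +
      (if k ∈ actS P j then rho P j k * (if 4 * P.s ^ 2 ≤ P.E k j then 0 else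
      (∑ i ∈ g, z i * hvy v (th0 P.s) k i) ^ 2) else 0) := by
    intro k
    have hr := rho_pos P j k
    by_cases a1 : P.j₀ k ≤ j
    · have a2 : k ∉ actS P j := by
        unfold actS; rw [Finset.mem_filter]; omega
      have a3 : rho P (j + 1) k = rho P j k := by
        unfold rho
        rw [Nat.sub_eq_zero_of_le a1, Nat.sub_eq_zero_of_le (by omega)]
      rw [if_neg a2, a3, add_zero]
      unfold newM; rw [if_pos a1]
    · have a3 : rho P (j + 1) k = 2 * rho P j k := by
        unfold rho
        have : P.j₀ k - j = (P.j₀ k - (j + 1)) + 1 := by omega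
        rw [this, pow_succ]; ring
      by_cases a4 : 4 * P.s ^ 2 ≤ P.E k j
      · have : newM P j g z M k = 0 := by unfold newM; rw [if_neg a1, if_pos a4]
        rw [this, if_pos a4]
        split_ifs <;> · have : 0 ≤ rho P j k * M k ^ 2 := by positivity
                        simp; exact this
      · have a2 : k ∈ actS P j := by
          unfold actS; rw [Finset.mem_filter]
          exact ⟨Finset.mem_univ _, P.j₁_le_of_E (not_le.mp a4), not_le.mp a1⟩
        rw [if_pos a2, if_neg a4, a3]
        have : newM P j g z M k = (M k + |∑ i ∈ g, z i * hvy v (th0 P.s) k i|) / 2 := by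
          unfold newM; rw [if_neg a1, if_neg a4]
        rw [this, ← sq_abs (∑ i ∈ g, z i * hvy v (th0 P.s) k i)]
        have h5 : 2 * ((M k + |∑ i ∈ g, z i * hvy v (th0 P.s) k i|) / 2) ^ 2 ≤
            M k ^ 2 + |∑ i ∈ g, z i * hvy v (th0 P.s) k i| ^ 2 := by
          nlinarith [sq_nonneg (M k - |∑ i ∈ g, z i * hvy v (th0 P.s) k i|)]
        have := mul_le_mul_of_nonneg_left h5 hr.le
        linarith
  refine (Finset.sum_le_sum fun k _ => h1 k).trans ?_
  rw [Finset.sum_add_distrib, Finset.sum_ite_mem, Finset.univ_inter, rhoSum_succ]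
  have h2 := L.lm
  have h3 := Z.msq
  unfold Cm at *
  linarith

/-- The ledgers of the children. -/
lemma ledg_child [Nonempty K] (Z : Good P j g p q z) (L : Ledg P j p q M F) :
    Ledg P (j + 1) p (midp v g p q z) (newM P j g z M)
      (newF P j p (midp v g p q z) F) ∧
    Ledg P (j + 1) (midp v g p q z) q (newM P j g z M)
      (newF P j (midp v g p q z) q F) := by
  have hmono := actSum_mono (P := P) (j := j)
  refine ⟨⟨?_, ?_, mass_ledger Z L⟩, ⟨?_, ?_, mass_ledger Z L⟩⟩
  · intro m hm
    have h1 := phi_old (P := P) (F := F) hm (Or.inl rfl : p = p ∨ (midp v g p q z) = p)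
    have h2 := L.lp m (by omega)
    linarith
  · intro m hm
    have h1 := phi_old (P := P) (F := F) hm
      (Or.inr rfl : p = midp v g p q z ∨ (midp v g p q z) = midp v g p q z)
    have h2 := phi_mid Z L (m := m) (by omega)
    linarith
  · intro m hm
    have h1 := phi_old (P := P) (F := F) hm
      (Or.inl rfl : midp v g p q z = midp v g p q z ∨ q = midp v g p q z)
    have h2 := phi_mid Z L (m := m) (by omega)
    linarith
  · intro m hm
    have h1 := phi_old (P := P) (F := F) hm (Or.inr rfl : midp v g p q z = q ∨ q = q)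
    have h2 := L.lq m (by omega)
    linarith

omit [Fintype ι] [Fintype K] [DecidableEq K] in
lemma sum_plus [DecidableEq ι] (hz : ∀ i ∈ g, z i = 1 ∨ z i = -1) (α : ι → ℝ) :
    ∑ i ∈ g.filter (fun i => z i = 1), α i = (∑ i ∈ g, α i) / 2 + (∑ i ∈ g, z i * α i) / 2 := by
  rw [Finset.sum_filter, ← add_div, ← Finset.sum_add_distrib, Finset.sum_div]
  apply Finset.sum_congr rfl
  intro i hi
  rcases hz i hi with h | h
  · rw [if_pos h, h]; ring
  · rw [if_neg (by rw [h]; norm_num), h]; ring

omit [Fintype ι] [Fintype K] [DecidableEq K] in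
lemma sum_minus [DecidableEq ι] (hz : ∀ i ∈ g, z i = 1 ∨ z i = -1) (α : ι → ℝ) :
    ∑ i ∈ g.filter (fun i => ¬ z i = 1), α i =
      (∑ i ∈ g, α i) / 2 - (∑ i ∈ g, z i * α i) / 2 := by
  have h1 := Finset.sum_filter_add_sum_filter_not g (fun i => z i = 1) α
  have h2 := sum_plus hz α
  linarith

omit [Fintype ι] [Fintype K] [DecidableEq K] in
lemma half_plus [DecidableEq ι] (hz : ∀ i ∈ g, z i = 1 ∨ z i = -1) :
    Half g (g.filter (fun i => z i = 1)) z := by
  refine ⟨Finset.filter_subset _ _, ?_⟩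
  intro α
  rw [sum_plus hz α, add_sub_cancel_left, abs_div, abs_two]

omit [Fintype ι] [Fintype K] [DecidableEq K] in
lemma half_minus [DecidableEq ι] (hz : ∀ i ∈ g, z i = 1 ∨ z i = -1) :
    Half g (g.filter (fun i => ¬ z i = 1)) z := by
  refine ⟨Finset.filter_subset _ _, ?_⟩
  intro α
  rw [sum_minus hz α, sub_sub_cancel_left, abs_neg, abs_div, abs_two]

lemma mid_act [Nonempty K] (N : Node P j g p q M F) (Z : Good P j g p q z) :
    ∀ k, P.j₁ k ≤ j → j < P.j₀ k →
      |p k| ≤ P.s * (1 + ((j : ℝ) + 1 - P.j₁ k)) ∧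
      |midp v g p q z k| ≤ P.s * (1 + ((j : ℝ) + 1 - P.j₁ k)) ∧
      |q k| ≤ P.s * (1 + ((j : ℝ) + 1 - P.j₁ k)) := by
  intro k h1 h2
  have hs := P.s_pos
  have h3 := N.act k h1 h2.le
  have h4 := Z.act k h1 h2
  have h5 : |midp v g p q z k| ≤ (|p k| + |q k|) / 2 + |∑ i ∈ g, z i * v i k| / 2 := by
    unfold midp
    refine (abs_add_le _ _).trans ?_
    rw [abs_div, abs_div, abs_two]
    have := abs_add_le (p k) (q k)
    linarith
  refine ⟨?_, ?_, ?_⟩ <;> nlinarith [h3.1, h3.2]

/-- Left child. -/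
lemma left_child [DecidableEq ι] [Nonempty K] (N : Node P j g p q M F) (Z : Good P j g p q z) :
    Node P (j + 1) (g.filter (fun i => z i = 1)) p (midp v g p q z) (newM P j g z M)
      (newF P j p (midp v g p q z) F) := by
  apply child_core N Z.sgn (half_plus Z.sgn.one)
  · intro k
    rw [sum_plus Z.sgn.one, ← N.sum k]
    unfold midp; ring
  · intro k hk
    exact ⟨(N.strong k hk).1, Z.strong k hk⟩
  · intro k h1 h2
    have := mid_act N Z k h1 h2
    exact ⟨this.1, this.2.1⟩
  · intro k hk
    have h1 : ∑ i ∈ g.filter (fun i => z i = 1), hvy v (P.θ k j) k i ≤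
        ∑ i ∈ g, hvy v (P.θ k j) k i :=
      Finset.sum_le_sum_of_subset_of_nonneg (Finset.filter_subset _ _)
        fun i _ _ => hvy_nonneg _ _ _ _
    have h2 := abs_nonneg (∑ i ∈ g, llin v (P.θ k j) k i)
    have h3 := abs_nonneg (∑ i ∈ g, z i * llin v (P.θ k j) k i)
    linarith

/-- Right child. -/
lemma right_child [DecidableEq ι] [Nonempty K] (N : Node P j g p q M F)
    (Z : Good P j g p q z) :
    Node P (j + 1) (g.filter (fun i => ¬ z i = 1)) (midp v g p q z) q (newM P j g z M)
      (newF P j (midp v g p q z) q F) := by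
  apply child_core N Z.sgn (half_minus Z.sgn.one)
  · intro k
    rw [sum_minus Z.sgn.one, ← N.sum k]
    unfold midp; ring
  · intro k hk
    exact ⟨Z.strong k hk, (N.strong k hk).2⟩
  · intro k h1 h2
    have := mid_act N Z k h1 h2
    exact ⟨this.2.1, this.2.2⟩
  · intro k hk
    set g₁ := g.filter (fun i => z i = 1) with hg₁
    have h1 : midp v g p q z k = p k + ∑ i ∈ g₁, v i k := by
      rw [sum_plus Z.sgn.one, ← N.sum k]
      unfold midp; ring
    have h2 : |∑ i ∈ g₁, v i k - ∑ i ∈ g₁, llin v (P.θ k j) k i| ≤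
        ∑ i ∈ g₁, hvy v (P.θ k j) k i := by
      rw [← Finset.sum_sub_distrib]
      refine (Finset.abs_sum_le_sum_abs _ _).trans ?_
      exact Finset.sum_le_sum fun i _ => abs_sub_llin v _ k i
    have h3 : |∑ i ∈ g₁, llin v (P.θ k j) k i| ≤ (|∑ i ∈ g, llin v (P.θ k j) k i| +
        |∑ i ∈ g, z i * llin v (P.θ k j) k i|) / 2 := by
      rw [sum_plus Z.sgn.one]
      refine (abs_add_le _ _).trans ?_
      rw [abs_div, abs_div, abs_two]; linarith
    have h4 := Finset.sum_filter_add_sum_filter_not g (fun i => z i = 1)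
      (hvy v (P.θ k j) k)
    have h5 : |midp v g p q z k| ≤ |p k| + |∑ i ∈ g₁, v i k| := by
      rw [h1]; exact abs_add_le _ _
    have h6 := abs_sub_abs_le_abs_sub (∑ i ∈ g₁, v i k) (∑ i ∈ g₁, llin v (P.θ k j) k i)
    rw [← hg₁] at h4
    linarith

end

/-- Squared radius of the final walk. -/
noncomputable def R2 {v : ι → K → ℝ} (P : Par v) (J : ℕ) : ℝ :=
  3 * (962 * actSum P J + Cp (Fintype.card K) P.s * Fintype.card K) +
    12 * (Cm (Fintype.card K) P.s * rhoSum P J) + 243 * Fintype.card K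

omit [Fintype ι] [Fintype K] [DecidableEq K] in
lemma list_sum [DecidableEq ι] {l : List ι} {g : Finset ι} (hl : l.Nodup)
    (h : ∀ i, i ∈ l ↔ i ∈ g) (f : ι → ℝ) : (l.map f).sum = ∑ i ∈ g, f i := by
  have : l.toFinset = g := by ext i; rw [List.mem_toFinset, h]
  rw [← this, List.sum_toFinset _ hl]

theorem tree [DecidableEq ι] [Nonempty K] {v : ι → K → ℝ} {P : Par v} {J : ℕ}
    (hJ : ∀ k, P.j₀ k ≤ J) (hfin : ∀ i k, v i k = 0 ∨ P.θ k J ≤ |v i k|)
    (hMc : 0 ≤ Mc (Fintype.card K) P.s) :
    ∀ n j, j + n = J → ∀ (g : Finset ι) (p q M F : K → ℝ), Node P j g p q M F →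
      Ledg P j p q M F → ∃ l : List ι, l.Nodup ∧ (∀ i, i ∈ l ↔ i ∈ g) ∧
        ∀ m, ∑ k, (p k + ((l.take m).map (fun i => v i k)).sum) ^ 2 ≤ R2 P J := by
  intro n
  induction n with
  | zero =>
    intro j hj g p q M F N L
    rw [add_zero] at hj
    subst hj
    refine ⟨g.toList, g.nodup_toList, fun i => Finset.mem_toList, ?_⟩
    intro m
    have h1 : ∀ k ∈ (univ : Finset K),
        (p k + ((g.toList.take m).map (fun i => v i k)).sum) ^ 2 ≤
        3 * F k + 12 * M k ^ 2 + 243 := by
      intro k _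
      have hnd : (g.toList.take m).Nodup := (g.nodup_toList).sublist (List.take_sublist _ _)
      have hsub : (g.toList.take m).toFinset ⊆ g := by
        intro i hi
        rw [List.mem_toFinset] at hi
        exact Finset.mem_toList.mp (List.mem_of_mem_take hi)
      have h2 : |((g.toList.take m).map (fun i => v i k)).sum| ≤
          ∑ i ∈ g, hvy v (P.θ k j) k i := by
        rw [← List.sum_toFinset _ hnd]
        refine (Finset.abs_sum_le_sum_abs _ _).trans ?_
        refine (Finset.sum_le_sum_of_subset_of_nonneg hsub fun i _ _ => abs_nonneg _).trans ?_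
        apply Finset.sum_le_sum
        intro i _
        unfold hvy
        rcases hfin i k with h | h
        · rw [h]; simp
        · rw [if_pos h]
      have h3 := N.wpos k (hJ k)
      have h4 : (0:ℝ) < (4 / 5) ^ (j - P.j₀ k) := by positivity
      have h5 : |p k + ((g.toList.take m).map (fun i => v i k)).sum| ≤
          Real.sqrt (F k) + 2 * M k + 9 := by
        refine (abs_add_le _ _).trans ?_
        linarith
      have h6 := Real.sq_sqrt (N.F0 k)
      have h7 := (N.M0 k).1
      have h8 := Real.sqrt_nonneg (F k)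
      rw [← sq_abs]
      have h9 : |p k + ((g.toList.take m).map (fun i => v i k)).sum| ^ 2 ≤
          (Real.sqrt (F k) + 2 * M k + 9) ^ 2 := pow_le_pow_left₀ (abs_nonneg _) h5 2
      nlinarith [sq_nonneg (Real.sqrt (F k) - 2 * M k), sq_nonneg (Real.sqrt (F k) - 9),
        sq_nonneg (2 * M k - 9)]
    refine (Finset.sum_le_sum h1).trans ?_
    rw [Finset.sum_add_distrib, Finset.sum_add_distrib, ← Finset.mul_sum, ← Finset.mul_sum,
      Finset.sum_const, nsmul_eq_mul, Finset.card_univ]
    have h2 : ∑ k, F k ≤ 962 * actSum P j + Cp (Fintype.card K) P.s * Fintype.card K := by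
      have h3 := L.lp j (le_refl _)
      have h4 : ∑ k, phi P j j p F k = ∑ k, F k := by
        apply Finset.sum_congr rfl
        intro k _
        unfold phi; rw [if_pos (hJ k)]
      rw [h4] at h3
      refine h3.trans ?_
      have h5 : ent P j ≤ Fintype.card K := by
        unfold ent
        exact_mod_cast Finset.card_le_univ _
      have h6 : 0 ≤ Cp (Fintype.card K) P.s := by unfold Cp; linarith
      have := mul_le_mul_of_nonneg_left h5 h6
      linarith
    have h3 : ∑ k, M k ^ 2 ≤ Cm (Fintype.card K) P.s * rhoSum P j := by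
      have h3 := L.lm
      have h4 : ∑ k, rho P j k * M k ^ 2 = ∑ k, M k ^ 2 := by
        apply Finset.sum_congr rfl
        intro k _
        unfold rho; rw [Nat.sub_eq_zero_of_le (hJ k), pow_zero, one_mul]
      rwa [h4] at h3
    unfold R2
    linarith
  | succ n ih =>
    intro j hj g p q M F N L
    obtain ⟨z, Z⟩ := exists_good N
    have hL := ledg_child Z L
    obtain ⟨l₁, hn₁, hm₁, hp₁⟩ := ih (j + 1) (by omega) _ _ _ _ _ (left_child N Z) hL.1
    obtain ⟨l₂, hn₂, hm₂, hp₂⟩ := ih (j + 1) (by omega) _ _ _ _ _ (right_child N Z) hL.2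
    refine ⟨l₁ ++ l₂, ?_, ?_, ?_⟩
    · rw [List.nodup_append]
      refine ⟨hn₁, hn₂, ?_⟩
      intro a ha b hb hab
      subst hab
      rw [hm₁, Finset.mem_filter] at ha
      rw [hm₂, Finset.mem_filter] at hb
      exact hb.2 ha.2
    · intro i
      rw [List.mem_append, hm₁, hm₂, Finset.mem_filter, Finset.mem_filter]
      tauto
    · intro m
      rw [List.take_append]
      rcases le_total m l₁.length with hle | hle
      · rw [Nat.sub_eq_zero_of_le hle, List.take_zero, List.append_nil]
        exact hp₁ m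
      · rw [List.take_of_length_le hle]
        have h1 := hp₂ (m - l₁.length)
        have h2 : ∀ k, p k + ((l₁ ++ l₂.take (m - l₁.length)).map (fun i => v i k)).sum =
            midp v g p q z k + ((l₂.take (m - l₁.length)).map (fun i => v i k)).sum := by
          intro k
          rw [List.map_append, List.sum_append, list_sum hn₁ hm₁, sum_plus Z.sgn.one,
            ← N.sum k]
          unfold midp; ring
        simp only [h2]
        exact h1

end Vale.Agent.P262
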